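import Vale.Agent.P183CH2.Unip

/-!
The Bruhat decomposition.
-/

set_option autoImplicit false
set_option linter.all false

namespace Vale.Agent.P183CH

open Matrix Subgroup Vale.Agent.P183A

namespace RG

variable {R : RS} {k : Type} [Field k] {G : Type} [Group G] {Γ : RG R k G}
  {i j : Fin R.r} {J : Set (Fin R.r)} {γ δ : R.Q} {w w' : R.Aut} {S S' S'' : Set R.Q}
  {g n n' t t' u u' : G} {l : List R.Q} {c c' : R.Q → k}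

theorem UJ_le_GJ (J : Set (Fin R.r)) : Γ.UJ J ≤ Γ.GJ J :=
  (X_mono fun _ h _ => h.2.2).trans le_sup_left

theorem VJ_le_GJ (J : Set (Fin R.r)) : Γ.VJ J ≤ Γ.GJ J :=
  (X_mono fun _ h _ => h.2).trans le_sup_left

theorem VJ_le (J : Set (Fin R.r)) : Γ.VJ J ≤ Γ.V := X_mono fun _ h _ => h.1

theorem U_le_Bo : Γ.U ≤ Γ.Bo := le_sup_left

theorem T_le_Bo : Γ.T ≤ Γ.Bo := le_sup_right

namespace Ok

variable (hΓ : Γ.Ok)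
include hΓ

theorem mem_X_single (hγ : γ ∈ R.Φ) (hS : S ⊆ {γ}) (hg : g ∈ Γ.X S) : ∃ a, g = Γ.x γ a :=
  hΓ.X_ind (P := fun g => ∃ a, g = Γ.x γ a) ⟨0, (hΓ.x_zero hγ).symm⟩
    (fun δ h _ a => ⟨a, by rw [hS h]⟩)
    (fun _ _ _ _ ⟨a, ha⟩ ⟨b, hb⟩ => ⟨a + b, by rw [ha, hb, hΓ.add γ hγ]⟩) hg

variable (hR : R.Ok)
include hR

theorem NJ_le : Γ.NJ J ≤ Γ.GJ J := sup_le le_sup_right ((closure_le _).2 (by
  rintro _ ⟨j, hj, rfl⟩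
  exact mem_sup_left (mul_mem (mul_mem (x_mem (hR.simple j) (RS.In_α hj) _)
    (x_mem (hR.neg_mem (hR.simple j)) (RS.In_α hj).neg _)) (x_mem (hR.simple j) (RS.In_α hj) _))))

theorem GJ_univ : Γ.GJ Set.univ = ⊤ := top_le_iff.1 (hΓ.gen.ge.trans ((closure_le _).2 (by
  rintro _ ⟨i, a, rfl | rfl⟩
  · exact mem_sup_left (x_mem (hR.simple i) (RS.In_univ _) a)
  · exact mem_sup_left (x_mem (hR.neg_mem (hR.simple i)) (RS.In_univ _) a))))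

theorem Bo_inf_N (hn : n ∈ Γ.N) (hb : n ∈ Γ.Bo) : n ∈ Γ.T := by
  obtain ⟨w, h⟩ := exists_rep_N hn
  have : w = 1 := hR.eq_one h.mem_W fun j _ => by
    have := (hΓ.conj_mem_U hR h (x_mem (hR.simple j) (RS.α_nonneg j) 1)).1
      (hΓ.nm_Bo n hb _ (x_mem (hR.simple j) (RS.α_nonneg j) 1))
    exact ((hΓ.x_mem_iff hR (RS.cl_pos w) (hR.α_pos j) one_ne_zero).1 this).2.2
  exact hΓ.rep_one hR (this ▸ h)

theorem conj_UJ (h : Γ.Rep n w) (hw : w ∈ R.WJ J)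
    (hu : u ∈ Γ.X (R.PJ J ∩ {γ | γ ∈ R.Φ ∧ 0 ≤ γ ∧ 0 ≤ w γ})) : n * u * n⁻¹ ∈ Γ.UJ J :=
  hΓ.rep_X hR h (fun _ e e' => ⟨hR.map_mem h.mem_W e', e.2.2.2, hR.map_In hw e.1.2.2⟩) hu

theorem split_UJ (hw : w ∈ R.W) (hu : u ∈ Γ.UJ J) :
    ∃ a ∈ Γ.X (R.PJ J ∩ {γ | γ ∈ R.Φ ∧ 0 ≤ γ ∧ 0 ≤ w γ}), ∃ b ∈ Γ.X (R.PJ J ∩ R.Inv w),
      u = a * b :=
  hΓ.X_split hR (RS.cl_PJ J)
    (fun γ e => (hR.sign' hw e.1).imp (fun a => ⟨e.1, e.2.1, a⟩) fun a => ⟨e.1, e.2.1, a⟩) hu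

theorem split_UJ' (hw : w ∈ R.W) (hu : u ∈ Γ.UJ J) :
    ∃ b ∈ Γ.X (R.PJ J ∩ R.Inv w), ∃ a ∈ Γ.X (R.PJ J ∩ {γ | γ ∈ R.Φ ∧ 0 ≤ γ ∧ 0 ≤ w γ}),
      u = b * a :=
  hΓ.X_split hR (RS.cl_PJ J) (fun γ e =>
    ((hR.sign' hw e.1).imp (fun a => ⟨e.1, e.2.1, a⟩) fun a => ⟨e.1, e.2.1, a⟩).symm) hu

theorem cell_mul (h : Γ.Rep n w) (h' : Γ.Rep n' w') (hd : Disjoint (R.Inv w) (R.Inv w'⁻¹))
    (hw : w ∈ R.WJ J) (hw' : w' ∈ R.WJ J) (hu : u ∈ Γ.UJ J) :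
    ∃ a ∈ Γ.UJ J, ∃ b ∈ Γ.UJ J, n * u * n' = a * (n * n') * b := by
  obtain ⟨a, ha, b, hb, rfl⟩ := hΓ.split_UJ hR h.mem_W hu
  refine ⟨_, hΓ.conj_UJ hR h hw ha, _, hΓ.conj_UJ hR h'.inv (inv_mem hw')
    (X_mono (fun γ e e' => ?_) hb), by group⟩
  exact ⟨e.1, e', e.1.2.1, (hR.sign' (inv_mem h'.mem_W) e').resolve_right fun c =>
    Set.disjoint_left.1 hd e.2 ⟨e', e.1.2.1, c⟩⟩

theorem cell_n (h : Γ.Rep n w) (hw : w ∈ R.WJ J) (hj : j ∈ J) (hu : u ∈ Γ.UJ J) :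
    ∃ a ∈ Γ.UJ J, ∃ b ∈ Γ.UJ J, ∃ t ∈ Γ.T,
      n * u * Γ.n j = a * (n * Γ.n j) * b ∨ n * u * Γ.n j = a * (n * t) * b := by
  have h0 : R.α j ∈ R.PJ J := ⟨hR.simple j, RS.α_nonneg j, RS.In_α hj⟩
  rcases hR.sign' h.mem_W (hR.simple j) with e | e
  · obtain ⟨a, ha, b, hb, h1⟩ := hΓ.cell_mul hR h (rep_n j) (by
      rw [hR.sE_inv, hR.Inv_sE, Set.disjoint_singleton_right]
      exact fun c => hR.not_both (hR.map_mem h.mem_W (hR.simple j)) e c.2.2) hw (RS.sE_mem hj) hu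
    exact ⟨a, ha, b, hb, 1, one_mem _, Or.inl h1⟩
  obtain ⟨x, hx, b, hb, rfl⟩ := hΓ.split_UJ' hR (inv_mem (RS.sE_mem_W j)) hu
  have h1 := hΓ.conj_UJ hR (rep_n j).inv (inv_mem (RS.sE_mem hj)) hb
  obtain ⟨a, rfl⟩ := hΓ.mem_X_single (hR.simple j) (fun γ e => by
    rw [← hR.Inv_sE, ← hR.sE_inv]; exact e.2) hx
  by_cases ha : a = 0
  · exact ⟨1, one_mem _, _, h1, 1, one_mem _, Or.inl (by rw [ha, hΓ.x_zero (hR.simple j)]; group)⟩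
  obtain ⟨c, hc⟩ := hΓ.rep_conj hR (rep_n j).inv (hR.simple j)
  have h2 := (hc a).1
  have h3 := hΓ.sl j (-(c * Units.mk0 a ha)⁻¹)
  rw [hR.sE_inv, hR.sE_α] at h2
  rw [show -(((-(c * Units.mk0 a ha)⁻¹)⁻¹ : kˣ) : k) = c * a by simp, ← h2] at h3
  generalize (-(c * Units.mk0 a ha)⁻¹ : kˣ) = s at h3
  have h4 := inv_mem (x_mem (Γ := Γ) (hR.simple j) h0 s)
  have h6 : R.α j ∈ R.PJ J ∩ {γ | γ ∈ R.Φ ∧ 0 ≤ γ ∧ 0 ≤ (w * R.sE j) γ} :=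
    ⟨h0, hR.simple j, RS.α_nonneg j, by rw [hR.mul_sE_α]; exact neg_nonneg.2 e⟩
  refine ⟨_, hΓ.conj_UJ hR (h.mul (rep_n j)) (mul_mem hw (RS.sE_mem hj))
    (inv_mem (x_mem (hR.simple j) h6 (s : k))), _, mul_mem h4 h1, _,
    mul_mem (hΓ.nm_N_T hR _ (n_mem j) _ (h_mem j s)) (h_mem j (-1)), Or.inr ?_⟩
  have h5 : Γ.h j s = Γ.x (R.α j) s * ((Γ.n j)⁻¹ * Γ.x (R.α j) a * (Γ.n j)⁻¹⁻¹) * Γ.x (R.α j) s *
      (Γ.n j)⁻¹ := by rw [h3, mul_inv_cancel_right]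
  rw [← hΓ.n_sq hR, h5]
  group

theorem bruhat0 (hg : g ∈ Γ.GJ J) : ∃ u ∈ Γ.UJ J, ∃ n ∈ Γ.NJ J, ∃ u' ∈ Γ.UJ J, g = u * n * u' := by
  let C : G → Prop := fun g => ∃ u ∈ Γ.UJ J, ∃ n ∈ Γ.NJ J, ∃ u' ∈ Γ.UJ J, g = u * n * u'
  have c1 : ∀ g ∈ Γ.UJ J, ∀ c, C c → C (c * g) := by
    rintro g hg _ ⟨u, hu, n, hn, u', hu', rfl⟩
    exact ⟨u, hu, n, hn, _, mul_mem hu' hg, mul_assoc _ _ _⟩
  have c2 : ∀ g ∈ Γ.T, ∀ c, C c → C (c * g) := by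
    rintro g hg _ ⟨u, hu, n, hn, u', hu', rfl⟩
    exact ⟨u, hu, _, mul_mem hn (T_le_NJ J hg), _, hΓ.nm_T_X _ _ (inv_mem hg) u' hu', by group⟩
  have c3 : ∀ j ∈ J, ∀ c, C c → C (c * Γ.n j) := by
    rintro j hj _ ⟨u, hu, n, hn, u', hu', rfl⟩
    obtain ⟨w, hw, h⟩ := exists_rep hn
    obtain ⟨a, ha, b, hb, t, ht, e | e⟩ := hΓ.cell_n hR h hw hj hu'
    · exact ⟨_, mul_mem hu ha, _, mul_mem hn (n_mem_NJ hj), b, hb, by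
        rw [mul_assoc u, mul_assoc u, e]; group⟩
    · exact ⟨_, mul_mem hu ha, _, mul_mem hn (T_le_NJ J ht), b, hb, by
        rw [mul_assoc u, mul_assoc u, e]; group⟩
  have c4 : ∀ g ∈ Γ.NJ J, ∀ c, C c → C (c * g) := by
    intro g hg c hc
    obtain ⟨w, hw, h⟩ := exists_rep hg
    obtain ⟨l, hl, rfl⟩ := hR.exists_wd hw
    have h1 := c2 _ (hΓ.rep_div hR h (rep_nd l)).1 c hc
    rw [show c * g = c * (g * (Γ.nd l)⁻¹) * Γ.nd l by group]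
    generalize c * (g * (Γ.nd l)⁻¹) = d at h1
    clear h hw
    induction l generalizing d with
    | nil => simpa [nd] using h1
    | cons i l ih =>
      rw [nd_cons, ← mul_assoc]
      exact ih (fun j hj => hl j (List.mem_cons_of_mem _ hj)) _ (c3 i (hl i List.mem_cons_self) d h1)
  obtain ⟨w₀, h₀⟩ := hR.exists_Lg J
  obtain ⟨n₀, h₁, h₂⟩ := exists_rep' (Γ := Γ) h₀.1
  rw [GJ, sup_comm] at hg
  obtain ⟨y, hy, t, ht, rfl⟩ := (hΓ.nm_T_X _).mem_sup'.1 hg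
  refine c2 t ht y ?_
  rw [← one_mul y]
  refine hΓ.X_ind (P := fun g => ∀ c, C c → C (c * g)) (fun c hc => by rwa [mul_one])
    (fun γ h1 h2 a c hc => ?_) (fun a _ b _ ha hb c hc => by
      rw [← mul_assoc]; exact hb _ (ha c hc)) hy 1
    ⟨1, one_mem _, 1, one_mem _, 1, one_mem _, by simp⟩
  rcases (hR.sign γ h2).2 with e | e
  · exact c1 _ (x_mem h2 (show γ ∈ R.PJ J from ⟨h2, e, h1⟩) a) c hc
  · have := c4 _ h₁ _ (c1 _ (hΓ.Lg_V hR h₂ h₀ (x_mem (S := {γ | γ ≤ 0 ∧ R.In J γ}) h2 ⟨e, h1⟩ a))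
      _ (c4 _ (inv_mem h₁) c hc))
    simpa [mul_assoc] using this

theorem bruhatJ (hg : g ∈ Γ.GJ J) :
    ∃ u ∈ Γ.UJ J, ∃ n, ∃ w ∈ R.WJ J, Γ.Rep n w ∧ ∃ u' ∈ Γ.X (R.Inv w), g = u * n * u' := by
  obtain ⟨u, hu, n, hn, u', hu', rfl⟩ := hΓ.bruhat0 hR hg
  obtain ⟨w, hw, h⟩ := exists_rep hn
  obtain ⟨a, ha, b, hb, rfl⟩ := hΓ.split_UJ hR h.mem_W hu'
  exact ⟨_, mul_mem hu (hΓ.conj_UJ hR h hw ha), n, w, hw, h, b, X_mono (fun _ e _ => e.2) hb,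
    by group⟩

theorem bruhat (g : G) :
    ∃ u ∈ Γ.U, ∃ n w, Γ.Rep n w ∧ ∃ u' ∈ Γ.X (R.Inv w), g = u * n * u' := by
  obtain ⟨u, hu, n, w, -, h⟩ := hΓ.bruhatJ hR (J := Set.univ) (g := g) (hΓ.GJ_univ hR ▸ mem_top g)
  exact ⟨u, UJ_le _ hu, n, w, h⟩

/-- the BN-pair axiom -/
theorem cell_Bo (h : Γ.Rep n w) (j : Fin R.r) {b : G} (hb : b ∈ Γ.Bo) : ∃ a ∈ Γ.Bo, ∃ a' ∈ Γ.Bo,
    n * b * Γ.n j = a * (n * Γ.n j) * a' ∨ n * b * Γ.n j = a * n * a' := by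
  obtain ⟨u, hu, t, ht, rfl⟩ := hΓ.mem_Bo.1 hb
  have h1 := T_le_Bo (hΓ.nm_N_T hR _ (inv_mem (n_mem j)) t ht)
  obtain ⟨a, ha, b, hb, t', ht', e | e⟩ := hΓ.cell_n hR (J := Set.univ) (j := j) h h.mem_W trivial
    (UJ_univ (Γ := Γ) ▸ hu)
  · exact ⟨a, U_le_Bo (UJ_le _ ha), _, mul_mem (U_le_Bo (UJ_le _ hb)) h1, Or.inl (by
      rw [← mul_assoc _ b, ← e]; group)⟩
  · exact ⟨a, U_le_Bo (UJ_le _ ha), _, mul_mem (T_le_Bo ht') (mul_mem (U_le_Bo (UJ_le _ hb)) h1),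
      Or.inr (by rw [← mul_assoc _ t', ← mul_assoc _ b, mul_assoc a n t', ← e]; group)⟩

theorem cell_eq' (h : Γ.Rep n w) (h' : Γ.Rep n' w') {a b : G} (ha : a ∈ Γ.Bo) (hb : b ∈ Γ.Bo)
    (e : n' = a * n * b) : w' = w := by
  have key : ∀ (m : ℕ) {n n' a b : G} {w w' : R.Aut}, Γ.Rep n w → Γ.Rep n' w' → a ∈ Γ.Bo →
      b ∈ Γ.Bo → n' = a * n * b → R.len w' = m → m ≤ R.len w → w' = w := by
    intro m
    induction m with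
    | zero =>
      intro n n' a b w w' h h' ha hb e h1 _
      obtain rfl := hR.len_eq_zero h'.mem_W h1
      refine hΓ.rep_unique hR (rep_T (hΓ.Bo_inf_N hR h.mem_N ?_)) h
      simpa [e, mul_assoc] using
        mul_mem (mul_mem (inv_mem ha) (T_le_Bo (hΓ.rep_one hR h'))) (inv_mem hb)
    | succ m ih =>
      intro n n' a b w w' h h' ha hb e h1 h2
      obtain ⟨j, -, hj⟩ := hR.exists_neg h'.mem_W fun e' => by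
        rw [e', hR.len_one] at h1
        omega
      have h3 := hR.len_mul_neg h'.mem_W hj
      obtain ⟨c, hc, c', hc', e' | e'⟩ := hΓ.cell_Bo hR h j hb
      · refine mul_right_cancel (ih (h.mul (rep_n j)) (h'.mul (rep_n j)) (mul_mem ha hc) hc'
          (by rw [e, mul_assoc a, mul_assoc a, e']; group) (by omega) ?_)
        rcases hR.sign' h.mem_W (hR.simple j) with h4 | h4
        · have := hR.len_mul_pos h.mem_W h4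
          omega
        · have := hR.len_mul_neg h.mem_W h4
          omega
      · have := ih h (h'.mul (rep_n j)) (mul_mem ha hc) hc'
          (by rw [e, mul_assoc a, mul_assoc a, e']; group) (by omega) (by omega)
        rw [this] at h3
        omega
  rcases le_total (R.len w') (R.len w) with h1 | h1
  · exact key _ h h' ha hb e rfl h1
  · exact (key _ h' h (inv_mem ha) (inv_mem hb) (by rw [e]; group) rfl h1).symm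

theorem bruhat_unique {u₁ u₂ n₁ n₂ v₁ v₂ : G} (h₁ : Γ.Rep n₁ w) (h₂ : Γ.Rep n₂ w') (a₁ : u₁ ∈ Γ.U)
    (a₂ : u₂ ∈ Γ.U) (b₁ : v₁ ∈ Γ.X (R.Inv w)) (b₂ : v₂ ∈ Γ.X (R.Inv w'))
    (h : u₁ * n₁ * v₁ = u₂ * n₂ * v₂) : u₁ = u₂ ∧ n₁ = n₂ ∧ v₁ = v₂ := by
  obtain rfl : w' = w := hΓ.cell_eq' hR h₁ h₂ (U_le_Bo (mul_mem (inv_mem a₂) a₁))
    (U_le_Bo (mul_mem (X_le_U (RS.cl_Inv _).1 b₁) (inv_mem (X_le_U (RS.cl_Inv _).1 b₂)))) (by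
      rw [← mul_assoc, mul_assoc u₂⁻¹, mul_assoc u₂⁻¹, h]; group)
  obtain ⟨e1, e2⟩ := hΓ.tri _ (mul_mem (inv_mem a₂) a₁) _ (hΓ.rep_div hR h₁ h₂).1 (by
    have := hΓ.conj_V hR h₂ (mul_mem b₂ (inv_mem b₁))
    rwa [show n₂ * (v₂ * v₁⁻¹) * n₂⁻¹ = u₂⁻¹ * (u₂ * n₂ * v₂) * v₁⁻¹ * n₂⁻¹ by group, ← h,
      show u₂⁻¹ * (u₁ * n₁ * v₁) * v₁⁻¹ * n₂⁻¹ = u₂⁻¹ * u₁ * (n₁ * n₂⁻¹) by group] at this)
  obtain rfl := inv_mul_eq_one.1 e1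
  obtain rfl := mul_inv_eq_one.1 e2
  exact ⟨rfl, rfl, mul_left_cancel h⟩

theorem cell_eq (hn : n ∈ Γ.N) (hn' : n' ∈ Γ.N) {a b : G} (ha : a ∈ Γ.U) (hb : b ∈ Γ.U)
    (h : n' = a * n * b) : n' = n := by
  obtain ⟨w, h1⟩ := exists_rep_N hn
  obtain ⟨w', h2⟩ := exists_rep_N hn'
  obtain ⟨c, hc, d, hd, rfl⟩ := hΓ.split_UJ hR (J := Set.univ) h1.mem_W (UJ_univ (Γ := Γ) ▸ hb)
  exact (hΓ.bruhat_unique hR h2 h1 (one_mem _)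
    (mul_mem ha (hΓ.conj_U hR h1 (X_mono (fun _ e _ => e.2) hc))) (one_mem _)
    (X_mono (fun _ e _ => e.2) hd) (by rw [h]; group)).2.1

end Ok

end RG

end Vale.Agent.P183CH
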