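import Vale.Agent.P183CH2.Weyl

/-!
Lengths, parabolic subgroups and longest elements.
-/

set_option autoImplicit false
set_option linter.all false

namespace Vale.Agent.P183CH

open Matrix Subgroup

namespace RS

variable {R : RS} {i j : Fin R.r} {J : Set (Fin R.r)} {γ δ : R.Q} {w w' : R.Aut} {S S' : Set R.Q}

namespace Ok

variable (hR : R.Ok)
include hR

theorem Inv_sE (i : Fin R.r) : R.Inv (R.sE i) = {R.α i} := by
  ext γ
  refine ⟨fun h => hR.eq_α_of_neg ⟨h.1, h.2.1⟩ h.2.2, ?_⟩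
  rintro rfl
  exact ⟨hR.simple i, α_nonneg i, by rw [hR.sE_α]; exact neg_nonpos.2 (α_nonneg i)⟩

theorem Inv_one : R.Inv 1 = ∅ :=
  Set.eq_empty_of_forall_notMem fun _ h => hR.not_both h.1 h.2.1 h.2.2

theorem len_mul (hw : w ∈ R.W) (hw' : w' ∈ R.W) :
    R.len (w * w') + 2 * (R.Inv w ∩ R.Inv w'⁻¹).ncard = R.len w + R.len w'⁻¹ := by
  have h1 : (R.Inv (w * w') ∩ {γ | 0 ≤ w' γ}).ncard = (R.Inv w \ R.Inv w'⁻¹).ncard := by
    refine Set.ncard_congr (fun γ _ => w' γ) (fun γ h => ⟨⟨hR.map_mem hw' h.1.1, h.2, h.1.2.2⟩,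
      fun c => hR.not_both h.1.1 h.1.2.1 (by simpa [inv_app] using c.2.2)⟩)
      (fun _ _ _ _ e => w'.injective e) fun β h => ⟨w'⁻¹ β, ⟨⟨hR.map_mem (inv_mem hw') h.1.1,
        (hR.sign' (inv_mem hw') h.1.1).resolve_right fun c => h.2 ⟨h.1.1, h.1.2.1, c⟩, ?_⟩, ?_⟩,
        app_inv _ _⟩
    · rw [mul_app, app_inv]
      exact h.1.2.2
    · show 0 ≤ w' (w'⁻¹ β)
      rw [app_inv]
      exact h.1.2.1
  have h2 : (R.Inv (w * w') \ {γ | 0 ≤ w' γ}).ncard = (R.Inv w'⁻¹ \ R.Inv w).ncard := by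
    refine Set.ncard_congr (fun γ _ => -w' γ) (fun γ h => ⟨⟨hR.neg_mem (hR.map_mem hw' h.1.1),
      neg_nonneg.2 ((hR.sign' hw' h.1.1).resolve_left h.2), ?_⟩, fun c => ?_⟩)
      (fun _ _ _ _ e => w'.injective (neg_injective e)) fun β h => ⟨-w'⁻¹ β,
        ⟨⟨hR.neg_mem (hR.map_mem (inv_mem hw') h.1.1), neg_nonneg.2 h.1.2.2, ?_⟩, fun c => ?_⟩, by
        rw [map_neg, app_inv, neg_neg]⟩
    · rw [map_neg, inv_app]
      exact neg_nonpos.2 h.1.2.1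
    · have := c.2.2
      rw [map_neg, neg_nonpos] at this
      exact hR.not_both (hR.map_mem (mul_mem hw hw') h.1.1) this h.1.2.2
    · rw [map_neg, mul_app, app_inv, neg_nonpos]
      exact (hR.sign' hw h.1.1).resolve_right fun c => h.2 ⟨h.1.1, h.1.2.1, c⟩
    · have c' : 0 ≤ w' (-w'⁻¹ β) := c
      rw [map_neg, app_inv, neg_nonneg] at c'
      exact hR.not_both h.1.1 h.1.2.1 c'
  have h3 := Set.ncard_inter_add_ncard_diff_eq_ncard (R.Inv (w * w')) {γ | 0 ≤ w' γ} (Inv_finite _)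
  have h4 := Set.ncard_inter_add_ncard_diff_eq_ncard (R.Inv w) (R.Inv w'⁻¹) (Inv_finite _)
  have h5 := Set.ncard_inter_add_ncard_diff_eq_ncard (R.Inv w'⁻¹) (R.Inv w) (Inv_finite _)
  rw [Set.inter_comm] at h5
  unfold len
  omega

theorem len_one : R.len 1 = 0 := by rw [len, hR.Inv_one, Set.ncard_empty]

theorem len_sE (i : Fin R.r) : R.len (R.sE i) = 1 := by rw [len, hR.Inv_sE, Set.ncard_singleton]

theorem exists_neg (hw : w ∈ R.WJ J) (h : w ≠ 1) : ∃ j ∈ J, w (R.α j) ≤ 0 := by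
  by_contra c
  push Not at c
  exact h (hR.eq_one hw fun j hj => (hR.sign' (WJ_le J hw) (hR.simple j)).resolve_right (c j hj))

theorem len_eq_zero (hw : w ∈ R.W) (h : R.len w = 0) : w = 1 := by
  by_contra c
  obtain ⟨j, -, hj⟩ := hR.exists_neg hw c
  rw [len, Set.ncard_eq_zero (Inv_finite w)] at h
  exact (h ▸ (⟨hR.simple j, α_nonneg j, hj⟩ : R.α j ∈ R.Inv w) : R.α j ∈ (∅ : Set R.Q))

theorem len_mul_pos (hw : w ∈ R.W) (h : 0 ≤ w (R.α i)) : R.len (w * R.sE i) = R.len w + 1 := by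
  have := hR.len_mul hw (sE_mem_W i)
  rw [hR.sE_inv, hR.len_sE, hR.Inv_sE, Set.inter_singleton_of_notMem fun c =>
    hR.not_both (hR.map_mem hw (hR.simple i)) h c.2.2, Set.ncard_empty] at this
  omega

theorem len_mul_neg (hw : w ∈ R.W) (h : w (R.α i) ≤ 0) : R.len (w * R.sE i) + 1 = R.len w := by
  have := hR.len_mul hw (sE_mem_W i)
  rw [hR.sE_inv, hR.len_sE, hR.Inv_sE, Set.inter_singleton_of_mem
    (show R.α i ∈ R.Inv w from ⟨hR.simple i, α_nonneg i, h⟩), Set.ncard_singleton] at this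
  omega

theorem len_inv (hw : w ∈ R.W) : R.len w⁻¹ = R.len w := by
  have := hR.len_mul (one_mem _) hw
  rw [one_mul, hR.Inv_one, Set.empty_inter, Set.ncard_empty, hR.len_one] at this
  omega

theorem mul_sE_α (w : R.Aut) (i : Fin R.r) : (w * R.sE i) (R.α i) = -w (R.α i) := by
  rw [mul_app, hR.sE_α, map_neg]

theorem mul_sE_sE (w : R.Aut) (i : Fin R.r) : w * R.sE i * R.sE i = w := by
  rw [mul_assoc, hR.sE_mul_self, mul_one]

theorem ind {P : R.Aut → Prop} (h1 : P 1) (h2 : ∀ w ∈ R.WJ J, ∀ j ∈ J, 0 ≤ w (R.α j) → P w →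
    P (w * R.sE j)) (hw : w ∈ R.WJ J) : P w := by
  induction hn : R.len w generalizing w with
  | zero => rwa [hR.len_eq_zero (WJ_le J hw) hn]
  | succ n ih =>
    obtain ⟨j, hj, h3⟩ := hR.exists_neg hw fun e => by
      rw [e, hR.len_one] at hn
      omega
    have h4 := mul_mem hw (sE_mem hj)
    have h5 := hR.len_mul_neg (WJ_le J hw) h3
    rw [← hR.mul_sE_sE w j]
    exact h2 _ h4 j hj (by rw [hR.mul_sE_α]; exact neg_nonneg.2 h3) (ih h4 (by omega))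

theorem sub_In (hw : w ∈ R.WJ J) (γ : R.Q) : R.In J (w γ - γ) := by
  obtain ⟨l, hl, rfl⟩ := hR.exists_wd hw
  clear hw
  induction l with
  | nil => exact fun i _ => sub_self _
  | cons a l ih =>
    rw [wd_cons, mul_app, hR.sE_eq, sub_right_comm, sub_eq_add_neg (_ - _)]
    exact (ih fun i hi => hl i (List.mem_cons_of_mem _ hi)).add
      ((In_α (hl a List.mem_cons_self)).smul _).neg

theorem map_In (hw : w ∈ R.WJ J) (h : R.In J γ) : R.In J (w γ) := by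
  simpa using (hR.sub_In hw γ).add h

theorem pos_of_not_In (hw : w ∈ R.WJ J) (hγ : γ ∈ R.Pos) (h : ¬ R.In J γ) : w γ ∈ R.Pos := by
  unfold In at h
  push Not at h
  obtain ⟨i, hi, h1⟩ := h
  have h2 := hR.sub_In hw γ i hi
  rw [Pi.sub_apply, sub_eq_zero] at h2
  exact hR.pos_of_coord (i := i) (hR.map_mem (WJ_le J hw) hγ.1)
    (h2 ▸ lt_of_le_of_ne (hγ.2 i) h1.symm)

theorem Inv_sub (hw : w ∈ R.WJ J) : R.Inv w ⊆ R.PJ J := fun γ h => ⟨h.1, h.2.1, by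
  by_contra c
  have := hR.pos_of_not_In hw ⟨h.1, h.2.1⟩ c
  exact hR.not_both this.1 this.2 h.2.2⟩

theorem mem_WJ_of_Inv (hw : w ∈ R.W) (h : R.Inv w ⊆ R.PJ J) : w ∈ R.WJ J := by
  revert h
  refine hR.ind (J := Set.univ) (P := fun w => R.Inv w ⊆ R.PJ J → w ∈ R.WJ J)
    (fun _ => one_mem _) (fun w hw j _ h1 ih h => ?_) hw
  have hj : j ∈ J := mem_of_In (h ⟨hR.simple j, α_nonneg j, by
    rw [hR.mul_sE_α]; exact neg_nonpos.2 h1⟩).2.2
  refine mul_mem (ih fun γ hγ => ⟨hγ.1, hγ.2.1, ?_⟩) (sE_mem hj)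
  have h2 := hR.s_pos (i := j) ⟨hγ.1, hγ.2.1⟩ fun e =>
    hR.not_both (hR.map_mem hw hγ.1) (e ▸ h1) hγ.2.2
  have h3 := (h ⟨h2.1, h2.2, by rw [mul_app, hR.sE_sE]; exact hγ.2.2⟩).2.2
  simpa [hR.sE_sE] using hR.map_In (sE_mem hj) h3

theorem exists_Lg (J : Set (Fin R.r)) : ∃ w, R.Lg J w := by
  have := hR.finite_W
  obtain ⟨w, hw, hmax⟩ := Set.exists_max_image (R.WJ J : Set R.Aut) R.len
    ((Set.toFinite (R.W : Set R.Aut)).subset (WJ_le J)) ⟨1, one_mem _⟩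
  refine ⟨w, hw, fun j hj => (hR.sign' (WJ_le J hw) (hR.simple j)).resolve_left fun c => ?_⟩
  have h1 := hmax _ (mul_mem hw (sE_mem hj))
  have h2 := hR.len_mul_pos (WJ_le J hw) c
  omega

theorem Lg_neg (h : R.Lg J w) (hγ : 0 ≤ γ) (hJ : R.In J γ) : w γ ≤ 0 := by
  rw [map_eq]
  refine Finset.sum_nonpos fun i _ => ?_
  by_cases e : i ∈ J
  · exact smul_nonpos_of_nonneg_of_nonpos (hγ i) (h.2 i e)
  · rw [hJ i e, zero_smul]

theorem Lg_Inv (h : R.Lg J w) : R.Inv w = R.PJ J :=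
  (hR.Inv_sub h.1).antisymm fun _ e => ⟨e.1, e.2.1, hR.Lg_neg h e.2.1 e.2.2⟩

theorem Lg_mul (h : R.Lg J w) (h' : R.Lg J w') : w * w' = 1 :=
  hR.eq_one (mul_mem h.1 h'.1) fun j hj => by
    have := hR.Lg_neg h (neg_nonneg.2 (h'.2 j hj)) (hR.map_In h'.1 (In_α hj)).neg
    rwa [map_neg, neg_nonpos] at this

theorem Lg_mul_self (h : R.Lg J w) : w * w = 1 := hR.Lg_mul h h

theorem Lg_unique (h : R.Lg J w) (h' : R.Lg J w') : w = w' :=
  mul_right_cancel ((hR.Lg_mul h h).trans (hR.Lg_mul h' h).symm)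

theorem Lg_inv (h : R.Lg J w) : w⁻¹ = w := inv_eq_of_mul_eq_one_right (hR.Lg_mul_self h)

theorem Lg_PJ (h : R.Lg J w) (hγ : γ ∈ R.PJ J) : -w γ ∈ R.PJ J :=
  ⟨hR.neg_mem (hR.map_mem (WJ_le J h.1) hγ.1), neg_nonneg.2 (hR.Lg_neg h hγ.2.1 hγ.2.2),
    (hR.map_In h.1 hγ.2.2).neg⟩

theorem eq_α_of_ht (hγ : γ ∈ R.Pos) (h : R.ht γ ≤ 1) : ∃ i, γ = R.α i := by
  obtain ⟨i, hi⟩ := hR.exists_pos hγ
  refine ⟨i, (hR.eq_of_coord hγ.1 fun j hj => ?_).resolve_right fun e =>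
    hR.not_both hγ.1 hγ.2 (by rw [e]; exact neg_nonpos.2 (α_nonneg i))⟩
  have h1 := Finset.sum_le_sum_of_subset_of_nonneg (f := γ) (Finset.subset_univ {i, j})
    fun a _ _ => hγ.2 a
  rw [Finset.sum_pair hj.symm] at h1
  have h2 : 0 ≤ γ j := hγ.2 j
  unfold ht at h
  omega

theorem Lg_α (h : R.Lg J w) (hj : j ∈ J) : ∃ j' ∈ J, w (R.α j) = -R.α j' := by
  have h1 := hR.Lg_PJ h ⟨hR.simple j, α_nonneg j, In_α hj⟩
  obtain ⟨β, hβ⟩ : ∃ β, β = -w (R.α j) := ⟨_, rfl⟩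
  rw [← hβ] at h1
  have h2 : R.α j = ∑ i, β i • -w (R.α i) := by
    simp only [smul_neg, Finset.sum_neg_distrib]
    rw [← map_eq, hβ, map_neg, neg_neg, ← mul_app, hR.Lg_mul_self h, one_app]
  obtain ⟨i, hi⟩ := hR.eq_α_of_ht ⟨h1.1, h1.2.1⟩ (by
    have h3 : R.ht (∑ i, β i • -w (R.α i)) = ∑ i, β i * R.ht (-w (R.α i)) := by
      simp only [ht, Finset.sum_apply, Finset.mul_sum, Pi.smul_apply, smul_eq_mul]
      exact Finset.sum_comm
    rw [← ht_α j, h2, h3]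
    refine Finset.sum_le_sum fun i _ => ?_
    by_cases e : i ∈ J
    · have h4 := hR.Lg_PJ h ⟨hR.simple i, α_nonneg i, In_α e⟩
      exact le_mul_of_one_le_right (h1.2.1 i) (hR.ht_pos ⟨h4.1, h4.2.1⟩)
    · rw [h1.2.2 i e, zero_mul])
  exact ⟨i, mem_of_In (hi ▸ h1.2.2), by rw [← hi, hβ, neg_neg]⟩

theorem exists_pr_pos (hγ : γ ∈ R.Pos) : ∃ j, 0 < γ j ∧ 0 < R.pr γ j := by
  by_contra c
  push Not at c
  refine (hR.B_pos (hR.sign γ hγ.1).1).not_ge ?_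
  rw [hR.B_sum]
  refine Finset.sum_nonpos fun j _ => ?_
  rcases (hγ.2 j).eq_or_lt with e | e
  · rw [← show (0 : ℤ) = γ j from e, zero_mul]
  · have h1 := hR.pr_B γ j
    have h2 := mul_nonpos_of_nonpos_of_nonneg (c j e) (hR.B_α_pos j).le
    rw [hR.B_comm]
    exact mul_nonpos_of_nonneg_of_nonpos e.le (by linarith)

theorem exists_conj_J (hγ : γ ∈ R.Φ) (h : R.In J γ) :
    ∃ w ∈ R.WJ J, ∃ j ∈ J, γ = w (R.α j) := by
  have key : ∀ n : ℕ, ∀ γ ∈ R.Pos, R.In J γ → R.ht γ ≤ n → ∃ w ∈ R.WJ J, ∃ j ∈ J, γ = w (R.α j) := by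
    intro n
    induction n with
    | zero => exact fun γ hγ _ h => absurd (hR.ht_pos hγ) (not_lt.2 h)
    | succ n ih =>
      intro γ hγ h1 h2
      obtain ⟨j, h3, h4⟩ := hR.exists_pr_pos hγ
      have hj : j ∈ J := by
        by_contra c
        exact h3.ne' (h1 j c)
      by_cases e : γ = R.α j
      · exact ⟨1, one_mem _, j, hj, e⟩
      obtain ⟨w, hw, i, hi, h5⟩ := ih _ (hR.s_pos hγ e) (hR.map_In (sE_mem hj) h1) (by
        rw [hR.sE_eq, sub_eq_add_neg, ← neg_smul, ht_add, ht_smul, ht_α]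
        push_cast at h2
        omega)
      exact ⟨R.sE j * w, mul_mem (sE_mem hj) hw, i, hi, by rw [mul_app, ← h5, hR.sE_sE]⟩
  rcases (hR.sign γ hγ).2 with e | e
  · exact key _ γ ⟨hγ, e⟩ h (Int.self_le_toNat _)
  · obtain ⟨w, hw, j, hj, h1⟩ := key _ (-γ) ⟨hR.neg_mem hγ, neg_nonneg.2 e⟩ h.neg
      (Int.self_le_toNat _)
    exact ⟨w * R.sE j, mul_mem hw (sE_mem hj), j, hj, by rw [hR.mul_sE_α, ← h1, neg_neg]⟩

theorem disj_of_len (hw : w ∈ R.W) (hw' : w' ∈ R.W) (h : R.len (w * w') = R.len w + R.len w') :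
    Disjoint (R.Inv w) (R.Inv w'⁻¹) := by
  have := hR.len_mul hw hw'
  rw [hR.len_inv hw'] at this
  rw [Set.disjoint_iff_inter_eq_empty, ← Set.ncard_eq_zero ((Inv_finite w).inter_of_left _)]
  omega

theorem len_of_disj (hw : w ∈ R.W) (hw' : w' ∈ R.W) (h : Disjoint (R.Inv w) (R.Inv w'⁻¹)) :
    R.len (w * w') = R.len w + R.len w' := by
  have := hR.len_mul hw hw'
  rw [hR.len_inv hw', Set.disjoint_iff_inter_eq_empty.1 h, Set.ncard_empty] at this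
  omega

end Ok

end RS

end Vale.Agent.P183CH
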