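import Vale.Agent.P183CH.IF
import Vale.Agent.P183A.Tk
import Mathlib.GroupTheory.NoncommPiCoprod

/-!
Weyl group, inversion sets, closed sets of roots, representatives, characters: definitions.
-/

set_option autoImplicit false
set_option linter.all false

namespace Vale.Agent.P183CH

open Matrix Subgroup

namespace RS

variable (R : RS)

/-- automorphisms of the root lattice -/
abbrev Aut : Type := R.Q ≃ₗ[ℤ] R.Q

/-- the pairing with a simple coroot as a linear map -/
def prL (j : Fin R.r) : R.Q →ₗ[ℤ] ℤ := (LinearMap.proj j).comp (Matrix.vecMulLinear R.A)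

theorem prL_apply (j : Fin R.r) (γ : R.Q) : R.prL j γ = R.pr γ j := rfl

theorem pr_α (i j : Fin R.r) : R.pr (R.α i) j = R.A i j := by simp [pr, α]

/-- the simple reflections as linear maps -/
def sL (i : Fin R.r) : R.Q →ₗ[ℤ] R.Q := LinearMap.id - (R.prL i).smulRight (R.α i)

theorem sL_apply (i : Fin R.r) (γ : R.Q) : R.sL i γ = R.s i γ := rfl

theorem sL_invol {i : Fin R.r} (h : R.A i i = 2) : Function.Involutive (R.sL i) := fun γ => by
  rw [sL_apply, s, sL_apply, s, ← prL_apply, ← prL_apply, map_sub, map_smul, prL_apply _ _ (R.α i),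
    pr_α, h, smul_eq_mul]
  module

/-- the simple reflections as automorphisms -/
noncomputable def sE (i : Fin R.r) : R.Aut :=
  if h : R.A i i = 2 then LinearEquiv.ofInvolutive (R.sL i) (R.sL_invol h) else 1

/-- the parabolic subgroups of the Weyl group -/
noncomputable def WJ (J : Set (Fin R.r)) : Subgroup R.Aut := closure (R.sE '' J)

/-- the Weyl group -/
noncomputable def W : Subgroup R.Aut := R.WJ Set.univ

/-- the product of a word in the simple reflections -/
noncomputable def wd (l : List (Fin R.r)) : R.Aut := (l.map R.sE).prod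

/-- the positive roots -/
def Pos : Set R.Q := {γ | γ ∈ R.Φ ∧ 0 ≤ γ}

/-- the inversion set -/
def Inv (w : R.Aut) : Set R.Q := {γ | γ ∈ R.Φ ∧ 0 ≤ γ ∧ w γ ≤ 0}

/-- the length -/
noncomputable def len (w : R.Aut) : ℕ := (R.Inv w).ncard

/-- `γ` is supported on `J` -/
def In (J : Set (Fin R.r)) (γ : R.Q) : Prop := ∀ i, i ∉ J → γ i = 0

/-- the positive roots supported on `J` -/
def PJ (J : Set (Fin R.r)) : Set R.Q := {γ | γ ∈ R.Φ ∧ 0 ≤ γ ∧ R.In J γ}

/-- the height -/
def ht (γ : R.Q) : ℤ := ∑ i, γ i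

/-- all roots `a γ + b δ` with `γ ∈ S`, `δ ∈ S'` lie in `S''` -/
def Br (S S' S'' : Set R.Q) : Prop :=
  ∀ γ ∈ S, ∀ δ ∈ S', ∀ a b : ℕ, 0 < a → 0 < b → a • γ + b • δ ∈ R.Φ → a • γ + b • δ ∈ S''

/-- closed sets of positive roots -/
def Cl (S : Set R.Q) : Prop := S ⊆ R.Pos ∧ R.Br S S S

/-- the invariant form -/
noncomputable def B (γ δ : R.Q) : ℤ := ∑ᶠ w : R.W, w.1 γ ⬝ᵥ w.1 δ

/-- `w` is the longest element of `W_J` -/
def Lg (J : Set (Fin R.r)) (w : R.Aut) : Prop := w ∈ R.WJ J ∧ ∀ j ∈ J, w (R.α j) ≤ 0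

end RS

namespace RG

variable {R : RS} {k : Type} [Field k] {G : Type} [Group G] (Γ : RG R k G)

/-- `n ∈ N` represents `w ∈ W` -/
def Rep (n : G) (w : R.Aut) : Prop :=
  (n, w) ∈ closure ({x | ∃ i, x = (Γ.n i, R.sE i)} ∪ {x | x.1 ∈ Γ.T ∧ x.2 = 1} : Set (G × R.Aut))

/-- the product of a word in the `n_i` -/
def nd (l : List (Fin R.r)) : G := (l.map Γ.n).prod

/-- ordered products of root elements -/
def P (l : List R.Q) (c : R.Q → k) : G := (l.map fun γ => Γ.x γ (c γ)).prod

/-- the positive root subgroups supported on `J` -/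
def UJ (J : Set (Fin R.r)) : Subgroup G := Γ.X (R.PJ J)

/-- the negative root subgroups supported on `J` -/
def VJ (J : Set (Fin R.r)) : Subgroup G := Γ.X {γ | γ ≤ 0 ∧ R.In J γ}

/-- the monomial group of the Levi subgroup -/
def NJ (J : Set (Fin R.r)) : Subgroup G := Γ.T ⊔ closure (Γ.n '' J)

/-- the Levi subgroup -/
def GJ (J : Set (Fin R.r)) : Subgroup G := Γ.X {γ | R.In J γ} ⊔ Γ.T

/-- the Borel subgroup -/
def Bo : Subgroup G := Γ.U ⊔ Γ.T

variable {Γ}

/-- the parametrisation of the torus -/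
noncomputable def Ok.hT (hΓ : Γ.Ok) : (Fin R.r → kˣ) →* G :=
  MonoidHom.noncommPiCoprod Γ.h fun i j _ t u => hΓ.hh i j t u

/-- the characters of the split torus -/
def chi0 (R : RS) (k : Type) [Field k] (γ : R.Q) : (Fin R.r → kˣ) →* kˣ where
  toFun t := ∏ i, t i ^ R.pr γ i
  map_one' := by simp
  map_mul' t u := by simp [mul_zpow, Finset.prod_mul_distrib]

open Classical in
/-- the character `γ` of the torus, as a function on `G` -/
noncomputable def Ok.chi (hΓ : Γ.Ok) (γ : R.Q) (t : G) : kˣ :=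
  if h : ∃ s, hΓ.hT s = t then chi0 R k γ h.choose else 1

end RG

end Vale.Agent.P183CH
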