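import Vale.Agent.P183CH2.Main

/-!
All statements of block CH2 are proved in `Weyl`, `Len`, `Tor`, `Unip`, `Main`.
-/
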