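import Vale.Agent.P183CH2.Len
import Mathlib.LinearAlgebra.Matrix.Adjugate
import Mathlib.Algebra.CharP.Reduced
import Mathlib.GroupTheory.OrderOfElement

/-!
Representatives of the Weyl group, the torus and its characters.
-/

set_option autoImplicit false
set_option linter.all false

namespace Vale.Agent.P183CH

open Matrix Subgroup Vale.Agent.P183A

namespace RG

variable {R : RS} {k : Type} [Field k] {G : Type} [Group G] {Γ : RG R k G}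
  {i j : Fin R.r} {J : Set (Fin R.r)} {γ δ : R.Q} {w w' : R.Aut} {S S' S'' : Set R.Q}
  {g n n' t t' u u' : G} {l : List R.Q} {c c' : R.Q → k}

theorem x_mem (hγ : γ ∈ R.Φ) (hS : γ ∈ S) (a : k) : Γ.x γ a ∈ Γ.X S :=
  subset_closure ⟨γ, hS, hγ, a, rfl⟩

theorem X_le {K : Subgroup G} (h : ∀ γ ∈ S, γ ∈ R.Φ → ∀ a, Γ.x γ a ∈ K) : Γ.X S ≤ K :=
  (closure_le K).2 (by rintro _ ⟨γ, h1, h2, a, rfl⟩; exact h γ h1 h2 a)

theorem X_mono (h : ∀ γ ∈ S, γ ∈ R.Φ → γ ∈ S') : Γ.X S ≤ Γ.X S' :=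
  X_le fun γ h1 h2 a => x_mem h2 (h γ h1 h2) a

theorem U_eq : Γ.U = Γ.X R.Pos :=
  le_antisymm (X_mono fun _ h1 h2 => ⟨h2, h1⟩) (X_mono fun _ h _ => h.2)

theorem X_le_U (hS : S ⊆ R.Pos) : Γ.X S ≤ Γ.U := X_mono fun _ h _ => (hS h).2

theorem UJ_univ : Γ.UJ Set.univ = Γ.U := by rw [UJ, RS.PJ_univ, U_eq]

theorem UJ_le (J : Set (Fin R.r)) : Γ.UJ J ≤ Γ.U := X_le_U (RS.cl_PJ J).1

theorem VJ_univ : Γ.VJ Set.univ = Γ.V :=
  le_antisymm (X_mono fun _ h _ => h.1) (X_mono fun γ h _ => ⟨h, RS.In_univ γ⟩)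

theorem NJ_univ : Γ.NJ Set.univ = Γ.N := by rw [NJ, Set.image_univ, N]

theorem NJ_le_N (J : Set (Fin R.r)) : Γ.NJ J ≤ Γ.N :=
  sup_le_sup_left (closure_mono (Set.image_subset_range _ _)) _

theorem h_mem (i : Fin R.r) (a : kˣ) : Γ.h i a ∈ Γ.T := subset_closure ⟨i, a, rfl⟩

theorem T_le_NJ (J : Set (Fin R.r)) : Γ.T ≤ Γ.NJ J := le_sup_left

theorem T_le_N : Γ.T ≤ Γ.N := le_sup_left

theorem n_mem_NJ (h : j ∈ J) : Γ.n j ∈ Γ.NJ J := mem_sup_right (subset_closure ⟨j, h, rfl⟩)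

theorem n_mem (i : Fin R.r) : Γ.n i ∈ Γ.N := mem_sup_right (subset_closure ⟨i, rfl⟩)

theorem rep_n (i : Fin R.r) : Γ.Rep (Γ.n i) (R.sE i) := subset_closure (Or.inl ⟨i, rfl⟩)

theorem rep_T (ht : t ∈ Γ.T) : Γ.Rep t 1 := subset_closure (Or.inr ⟨ht, rfl⟩)

theorem Rep.mul (h : Γ.Rep n w) (h' : Γ.Rep n' w') : Γ.Rep (n * n') (w * w') := mul_mem h h'

theorem Rep.inv (h : Γ.Rep n w) : Γ.Rep n⁻¹ w⁻¹ := inv_mem h

theorem Rep.mul_T (h : Γ.Rep n w) (ht : t ∈ Γ.T) : Γ.Rep (n * t) w := by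
  simpa using h.mul (rep_T ht)

theorem Rep.T_mul (h : Γ.Rep n w) (ht : t ∈ Γ.T) : Γ.Rep (t * n) w := by
  simpa using (rep_T ht).mul h

theorem nd_cons (i : Fin R.r) (l : List (Fin R.r)) : Γ.nd (i :: l) = Γ.n i * Γ.nd l := by simp [nd]

theorem nd_append (l l' : List (Fin R.r)) : Γ.nd (l ++ l') = Γ.nd l * Γ.nd l' := by simp [nd]

theorem nd_single (i : Fin R.r) : Γ.nd [i] = Γ.n i := by simp [nd]

theorem rep_nd (l : List (Fin R.r)) : Γ.Rep (Γ.nd l) (R.wd l) := by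
  induction l with
  | nil => exact rep_T (one_mem _)
  | cons i l ih => rw [nd_cons, RS.wd_cons]; exact (rep_n i).mul ih

theorem Rep.ind {P : G → R.Aut → Prop} (h1 : ∀ i, P (Γ.n i) (R.sE i)) (h2 : ∀ t ∈ Γ.T, P t 1)
    (h3 : ∀ n w n' w', Γ.Rep n w → Γ.Rep n' w' → P n w → P n' w' → P (n * n') (w * w'))
    (h4 : ∀ n w, Γ.Rep n w → P n w → P n⁻¹ w⁻¹) (h : Γ.Rep n w) : P n w := by
  refine closure_induction (p := fun x _ => P x.1 x.2) ?_ (h2 1 (one_mem _))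
    (fun x y hx hy => h3 _ _ _ _ hx hy) (fun x hx => h4 _ _ hx) h
  rintro ⟨a, b⟩ (⟨i, e⟩ | ⟨e, rfl⟩)
  · rw [e]
    exact h1 i
  · exact h2 a e

theorem Rep.mem_N (h : Γ.Rep n w) : n ∈ Γ.N :=
  h.ind (P := fun n _ => n ∈ Γ.N) n_mem (fun _ ht => T_le_N ht) (fun _ _ _ _ _ _ => mul_mem)
    fun _ _ _ => inv_mem

theorem Rep.mem_W (h : Γ.Rep n w) : w ∈ R.W :=
  h.ind (P := fun _ w => w ∈ R.W) RS.sE_mem_W (fun _ _ => one_mem _) (fun _ _ _ _ _ _ => mul_mem)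
    fun _ _ _ => inv_mem

theorem exists_rep (hn : n ∈ Γ.NJ J) : ∃ w ∈ R.WJ J, Γ.Rep n w := by
  let K : Subgroup G :=
    { carrier := {n | ∃ w ∈ R.WJ J, Γ.Rep n w}
      one_mem' := ⟨1, one_mem _, rep_T (one_mem _)⟩
      mul_mem' := fun ⟨w, a, b⟩ ⟨w', a', b'⟩ => ⟨w * w', mul_mem a a', b.mul b'⟩
      inv_mem' := fun ⟨w, a, b⟩ => ⟨w⁻¹, inv_mem a, b.inv⟩ }
  exact (sup_le (fun t ht => ⟨1, one_mem _, rep_T ht⟩) ((closure_le K).2 (by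
    rintro _ ⟨j, hj, rfl⟩
    exact ⟨_, RS.sE_mem hj, rep_n j⟩)) : Γ.NJ J ≤ K) hn

theorem exists_rep' (hw : w ∈ R.WJ J) : ∃ n ∈ Γ.NJ J, Γ.Rep n w := by
  induction hw using closure_induction with
  | mem x hx =>
    obtain ⟨j, hj, rfl⟩ := hx
    exact ⟨_, n_mem_NJ hj, rep_n j⟩
  | one => exact ⟨1, one_mem _, rep_T (one_mem _)⟩
  | mul x y _ _ hx hy =>
    obtain ⟨n, a, b⟩ := hx
    obtain ⟨n', a', b'⟩ := hy
    exact ⟨n * n', mul_mem a a', b.mul b'⟩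
  | inv x _ hx =>
    obtain ⟨n, a, b⟩ := hx
    exact ⟨n⁻¹, inv_mem a, b.inv⟩

theorem exists_rep_N (hn : n ∈ Γ.N) : ∃ w, Γ.Rep n w :=
  let ⟨w, _, h⟩ := exists_rep (J := Set.univ) (by rwa [NJ_univ])
  ⟨w, h⟩

theorem chi0_apply (γ : R.Q) (s : Fin R.r → kˣ) : chi0 R k γ s = ∏ i, s i ^ R.pr γ i := rfl

theorem chi0_single (γ : R.Q) (i : Fin R.r) (a : kˣ) :
    chi0 R k γ (Pi.mulSingle i a) = a ^ R.pr γ i := by
  rw [chi0_apply, Finset.prod_eq_single i (fun j _ hj => by simp [hj]) (by simp)]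
  simp

theorem conj_le {K L : Subgroup G} {s : Set G} (hK : K = closure s)
    (h : ∀ x ∈ s, g * x * g⁻¹ ∈ L) (hu : u ∈ K) : g * u * g⁻¹ ∈ L :=
  ((hK.le.trans ((closure_le (L.comap (MulAut.conj g).toMonoidHom)).2 h)) hu :)

namespace Ok

variable (hΓ : Γ.Ok)
include hΓ

theorem x_zero (hγ : γ ∈ R.Φ) : Γ.x γ 0 = 1 := by
  have := hΓ.add γ hγ 0 0
  rw [add_zero] at this
  exact mul_eq_left.1 this.symm

theorem x_neg (hγ : γ ∈ R.Φ) (a : k) : Γ.x γ (-a) = (Γ.x γ a)⁻¹ :=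
  eq_inv_of_mul_eq_one_left (by rw [← hΓ.add γ hγ, neg_add_cancel, hΓ.x_zero hγ])

theorem hT_single (i : Fin R.r) (a : kˣ) : hΓ.hT (Pi.mulSingle i a) = Γ.h i a :=
  MonoidHom.noncommPiCoprod_mulSingle _ _ _

theorem hT_range : hΓ.hT.range = Γ.T := by
  refine (MonoidHom.noncommPiCoprod_range _).trans
    (le_antisymm (iSup_le fun i => ?_) ((closure_le _).2 ?_))
  · rintro _ ⟨a, rfl⟩
    exact h_mem i a
  · rintro _ ⟨i, a, rfl⟩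
    exact mem_iSup_of_mem i ⟨a, rfl⟩

theorem hT_mem (s : Fin R.r → kˣ) : hΓ.hT s ∈ Γ.T := hΓ.hT_range ▸ ⟨s, rfl⟩

theorem exists_hT (ht : t ∈ Γ.T) : ∃ s, hΓ.hT s = t := by rwa [← hΓ.hT_range] at ht

theorem T_comm (ht : t ∈ Γ.T) (ht' : t' ∈ Γ.T) : t * t' = t' * t := by
  obtain ⟨s, rfl⟩ := hΓ.exists_hT ht
  obtain ⟨s', rfl⟩ := hΓ.exists_hT ht'
  rw [← map_mul, mul_comm, map_mul]

theorem chi_add (γ δ : R.Q) (t : G) : hΓ.chi (γ + δ) t = hΓ.chi γ t * hΓ.chi δ t := by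
  unfold chi
  split_ifs
  · simp [chi0_apply, RS.pr_add, zpow_add, Finset.prod_mul_distrib]
  · simp

theorem chi_smul (m : ℤ) (γ : R.Q) (t : G) : hΓ.chi (m • γ) t = hΓ.chi γ t ^ m := by
  unfold chi
  split_ifs
  · simp only [chi0_apply, RS.pr_smul, ← Finset.prod_zpow, ← zpow_mul, mul_comm]
  · simp

theorem chi_zero (t : G) : hΓ.chi 0 t = 1 := by simpa using hΓ.chi_smul 0 0 t

theorem chi_neg (γ : R.Q) (t : G) : hΓ.chi (-γ) t = (hΓ.chi γ t)⁻¹ := by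
  simpa using hΓ.chi_smul (-1) γ t

theorem chi_sum {ι : Type} (s : Finset ι) (f : ι → R.Q) (t : G) :
    hΓ.chi (∑ i ∈ s, f i) t = ∏ i ∈ s, hΓ.chi (f i) t := by
  classical
  induction s using Finset.induction_on with
  | empty => simp [hΓ.chi_zero]
  | insert a s ha ih => rw [Finset.sum_insert ha, Finset.prod_insert ha, hΓ.chi_add, ih]

theorem hT_x (s : Fin R.r → kˣ) (hγ : γ ∈ R.Φ) (a : k) :
    hΓ.hT s * Γ.x γ a * (hΓ.hT s)⁻¹ = Γ.x γ (chi0 R k γ s * a) := by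
  induction s using Pi.mulSingle_induction generalizing a with
  | one => simp
  | mul s s' h h' =>
    rw [map_mul, map_mul, Units.val_mul, mul_assoc (_ : k), ← h, ← h']
    group
  | mulSingle i b => rw [hΓ.hT_single, chi0_single, hΓ.hx i b γ hγ]

theorem tx (ht : t ∈ Γ.T) (hγ : γ ∈ R.Φ) (a : k) :
    t * Γ.x γ a * t⁻¹ = Γ.x γ (hΓ.chi γ t * a) := by
  have h := hΓ.exists_hT ht
  rw [chi, dif_pos h, ← hΓ.hT_x _ hγ, h.choose_spec]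

theorem nm_T_X (S : Set R.Q) : Nm Γ.T (Γ.X S) := fun t ht _ hu => conj_le rfl (by
  rintro _ ⟨γ, h1, h2, a, rfl⟩
  rw [hΓ.tx ht h2]
  exact x_mem h2 h1 _) hu

theorem U_inf_V (hu : u ∈ Γ.U) (hv : u ∈ Γ.V) : u = 1 :=
  (hΓ.tri u hu 1 (one_mem _) (by rwa [mul_one])).1

theorem mem_Bo : g ∈ Γ.Bo ↔ ∃ u ∈ Γ.U, ∃ t ∈ Γ.T, g = u * t := by
  rw [Bo, sup_comm]
  simp only [eq_comm (a := g)]
  exact (hΓ.nm_T_X _).mem_sup'

theorem nm_Bo : Nm Γ.Bo Γ.U := (Nm.of_le le_rfl).sup_left (hΓ.nm_T_X _)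

theorem x_pos_eq (hγ : γ ∈ R.Pos) {a : k} (h : Γ.x γ a = 1) : a = 0 :=
  hΓ.uniq [(γ, a)] (by simp) (by simpa using ⟨hγ.1, hγ.2⟩) (by simpa using h) (γ, a) (by simp)

variable (hR : R.Ok)
include hR

theorem n_inv (i : Fin R.r) : (Γ.n i)⁻¹ = Γ.h i (-1) * Γ.n i := by
  have h1 := hR.simple i
  have h2 := hR.neg_mem h1
  rw [← hΓ.sl, n, _root_.mul_inv_rev, _root_.mul_inv_rev, ← hΓ.x_neg h1, ← hΓ.x_neg h2, mul_assoc]
  simp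

theorem n_sq (i : Fin R.r) : Γ.n i * Γ.n i = Γ.h i (-1) := by
  have h1 : Γ.h i (-1) * Γ.h i (-1) = 1 := by rw [← map_mul]; simp
  have h2 := inv_mul_cancel (Γ.n i)
  rw [hΓ.n_inv hR, mul_assoc] at h2
  exact mul_left_cancel (h2.trans h1.symm)

theorem nm_N_T : Nm Γ.N Γ.T := by
  have h1 : ∀ i, ∀ t ∈ Γ.T, Γ.n i * t * (Γ.n i)⁻¹ ∈ Γ.T := fun i t ht => conj_le rfl (by
    rintro _ ⟨j, a, rfl⟩
    rw [hΓ.nh]
    exact mul_mem (h_mem _ _) (h_mem _ _)) ht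
  refine (Nm.of_le le_rfl).sup_left (nm_iff.2 ((closure_le _).2 ?_))
  rintro _ ⟨i, rfl⟩ t
  refine ⟨h1 i t, fun h => ?_⟩
  have h2 := mul_mem (mul_mem (h_mem (Γ := Γ) i (-1)) (h1 i _ h)) (inv_mem (h_mem (Γ := Γ) i (-1)))
  have h3 : t = (Γ.n i)⁻¹ * (Γ.n i * t * (Γ.n i)⁻¹) * (Γ.n i)⁻¹⁻¹ := by group
  rw [h3]
  nth_rewrite 1 [hΓ.n_inv hR]
  nth_rewrite 2 [hΓ.n_inv hR]
  simpa only [_root_.mul_inv_rev, mul_assoc, SetLike.mem_coe] using h2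

theorem rep_conj (h : Γ.Rep n w) (hγ : γ ∈ R.Φ) : ∃ c : kˣ, ∀ a,
    n * Γ.x γ a * n⁻¹ = Γ.x (w γ) (c * a) ∧
      n * Γ.x (-γ) a * n⁻¹ = Γ.x (-w γ) ((c⁻¹ : kˣ) * a) := by
  revert γ
  refine h.ind (P := fun n w => ∀ {γ}, γ ∈ R.Φ → ∃ c : kˣ, ∀ a,
    n * Γ.x γ a * n⁻¹ = Γ.x (w γ) (c * a) ∧ n * Γ.x (-γ) a * n⁻¹ = Γ.x (-w γ) ((c⁻¹ : kˣ) * a))
    (fun i γ hγ => ?_) (fun t ht γ hγ => ?_) (fun n w n' w' _ h' a b γ hγ => ?_)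
    fun n w h a γ hγ => ?_
  · obtain ⟨ε, hε⟩ := hΓ.nx i γ hγ
    rw [hR.sE_apply]
    rcases Int.units_eq_one_or ε with rfl | rfl
    · exact ⟨1, by simpa using hε⟩
    · exact ⟨-1, by simpa using hε⟩
  · exact ⟨hΓ.chi γ t, fun a => ⟨hΓ.tx ht hγ a, by rw [hΓ.tx ht (hR.neg_mem hγ), hΓ.chi_neg]; rfl⟩⟩
  · obtain ⟨c', h1⟩ := b hγ
    obtain ⟨c, h2⟩ := a (hR.map_mem h'.mem_W hγ)
    refine ⟨c * c', fun a => ⟨?_, ?_⟩⟩
    · rw [Units.val_mul, mul_assoc (_ : k), RS.mul_app, ← (h2 _).1, ← (h1 _).1]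
      group
    · rw [mul_inv, Units.val_mul, mul_assoc (_ : k), RS.mul_app, ← (h2 _).2, ← (h1 _).2]
      group
  · obtain ⟨c, h1⟩ := a (hR.map_mem (inv_mem h.mem_W) hγ)
    rw [RS.app_inv] at h1
    refine ⟨c⁻¹, fun a => ⟨?_, ?_⟩⟩
    · rw [show a = c * ((c⁻¹ : kˣ) * a) by simp, ← (h1 _).1]
      simp [mul_assoc]
    · rw [show a = (c⁻¹ : kˣ) * (c * a) by simp, ← (h1 _).2]
      simp [mul_assoc]

theorem rep_X (h : Γ.Rep n w) (hS : ∀ γ ∈ S, γ ∈ R.Φ → w γ ∈ S') (hg : g ∈ Γ.X S) :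
    n * g * n⁻¹ ∈ Γ.X S' := conj_le rfl (by
  rintro _ ⟨γ, h1, h2, a, rfl⟩
  obtain ⟨c, hc⟩ := hΓ.rep_conj hR h h2
  rw [(hc a).1]
  exact x_mem (hR.map_mem h.mem_W h2) (hS γ h1 h2) _) hg

theorem x_eq_one (hγ : γ ∈ R.Φ) {a : k} (h : Γ.x γ a = 1) : a = 0 := by
  obtain ⟨w, hw, i, rfl⟩ := hR.exists_conj hγ
  obtain ⟨n, -, hn⟩ := exists_rep' (Γ := Γ) hw
  obtain ⟨c, hc⟩ := hΓ.rep_conj hR hn.inv hγ
  have := (hc a).1
  rw [h, RS.inv_app] at this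
  simpa using hΓ.x_pos_eq (hR.α_pos i) (a := c * a) (by rw [← this]; simp)

theorem x_inj (hγ : γ ∈ R.Φ) : Function.Injective (Γ.x γ) := fun a b h =>
  sub_eq_zero.1 (hΓ.x_eq_one hR hγ (by
    rw [sub_eq_add_neg, hΓ.add γ hγ, h, hΓ.x_neg hγ, mul_inv_cancel]))

theorem x_eq (hγ : γ ∈ R.Φ) (hδ : δ ∈ R.Φ) {a b : k} (ha : a ≠ 0) (h : Γ.x γ a = Γ.x δ b) :
    γ = δ := by
  obtain ⟨w, hw, i, rfl⟩ := hR.exists_conj hγ
  obtain ⟨n, -, hn⟩ := exists_rep' (Γ := Γ) hw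
  obtain ⟨c, hc⟩ := hΓ.rep_conj hR hn.inv hγ
  obtain ⟨c', hc'⟩ := hΓ.rep_conj hR hn.inv hδ
  have h1 := (hc a).1
  rw [h, (hc' b).1, RS.inv_app] at h1
  have h2 := hR.map_mem (inv_mem hw) hδ
  have h3 : (c : k) * a ≠ 0 := mul_ne_zero c.ne_zero ha
  by_contra e
  have e' : R.α i ≠ w⁻¹ δ := fun e' => e (by rw [e', RS.app_inv])
  generalize w⁻¹ δ = β at h1 h2 e'
  rcases (hR.sign _ h2).2 with h4 | h4
  · exact h3 (hΓ.uniq [(R.α i, c * a), (β, -(c' * b))] (by simpa using e')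
      (by simp [hR.simple, RS.α_nonneg, h2, h4]) (by simp [hΓ.x_neg h2, h1]) (R.α i, c * a) (by simp))
  · exact h3 (hΓ.x_pos_eq (hR.α_pos i) (hΓ.U_inf_V (x_mem (hR.simple i) (RS.α_nonneg i) _)
      (h1 ▸ x_mem h2 h4 _)))

theorem rep_unique (h : Γ.Rep n w) (h' : Γ.Rep n w') : w = w' := RS.aut_ext fun i => by
  obtain ⟨c, hc⟩ := hΓ.rep_conj hR h (hR.simple i)
  obtain ⟨c', hc'⟩ := hΓ.rep_conj hR h' (hR.simple i)
  exact hΓ.x_eq hR (hR.map_mem h.mem_W (hR.simple i)) (hR.map_mem h'.mem_W (hR.simple i))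
    (by simp) ((hc 1).1.symm.trans (hc' 1).1)

theorem rep_n_conj (h : Γ.Rep n w) (hw : w (R.α i) = R.α j) :
    ∃ c : kˣ, n * Γ.n i * n⁻¹ = Γ.h j c * Γ.n j := by
  obtain ⟨c, hc⟩ := hΓ.rep_conj hR h (hR.simple i)
  rw [hw] at hc
  refine ⟨c, ?_⟩
  have h1 := (hc 1).1
  have h2 := (hc (-1)).2
  rw [mul_one] at h1
  rw [mul_neg_one] at h2
  rw [← hΓ.sl, ← h1, ← h2, RG.n]
  group

theorem exists_nd (h : Γ.Rep n w) : ∃ t ∈ Γ.T, ∃ l, n = t * Γ.nd l ∧ w = R.wd l := by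
  have key : ∀ {n n' w w'}, Γ.Rep n w → (∃ t ∈ Γ.T, ∃ l, n = t * Γ.nd l ∧ w = R.wd l) →
      (∃ t ∈ Γ.T, ∃ l, n' = t * Γ.nd l ∧ w' = R.wd l) →
      ∃ t ∈ Γ.T, ∃ l, n * n' = t * Γ.nd l ∧ w * w' = R.wd l := by
    rintro _ _ _ _ - ⟨t, ht, l, rfl, rfl⟩ ⟨t', ht', l', rfl, rfl⟩
    exact ⟨_, mul_mem ht (hΓ.nm_N_T hR _ (rep_nd l).mem_N t' ht'), l ++ l', by
      rw [nd_append]; group, (RS.wd_append _ _).symm⟩
  refine h.ind (P := fun n w => ∃ t ∈ Γ.T, ∃ l, n = t * Γ.nd l ∧ w = R.wd l)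
    (fun i => ⟨1, one_mem _, [i], by rw [nd_single, one_mul], (RS.wd_single i).symm⟩)
    (fun t ht => ⟨t, ht, [], (mul_one t).symm, rfl⟩) (fun _ _ _ _ h _ => key h) ?_
  rintro _ _ - ⟨t, ht, l, rfl, rfl⟩
  rw [_root_.mul_inv_rev, ← mul_one (R.wd l)⁻¹]
  refine key (rep_nd l).inv ?_ ⟨t⁻¹, inv_mem ht, [], (mul_one _).symm, rfl⟩
  induction l with
  | nil => exact ⟨1, one_mem _, [], by simp [nd], rfl⟩
  | cons i l ih =>
    rw [nd_cons, RS.wd_cons, _root_.mul_inv_rev, _root_.mul_inv_rev]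
    exact key (rep_nd l).inv ih ⟨_, h_mem i (-1), [i], by rw [nd_single, hΓ.n_inv hR], by
      rw [RS.wd_single, hR.sE_inv]⟩

theorem rep_one (h : Γ.Rep n 1) : n ∈ Γ.T := by
  obtain ⟨t, ht, l, rfl, hl⟩ := hΓ.exists_nd hR h
  refine mul_mem ht ?_
  clear h
  induction hn : l.length using Nat.strong_induction_on generalizing l with
  | _ m ih =>
  rcases List.eq_nil_or_concat' l with rfl | ⟨u, b, rfl⟩
  · exact one_mem _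
  rw [RS.wd_append, RS.wd_single] at hl
  have h1 : R.wd u (R.α b) ≤ 0 := by
    have := hR.mul_sE_α (R.wd u) b
    rw [← hl, RS.one_app] at this
    exact neg_nonneg.1 (this ▸ RS.α_nonneg b)
  obtain ⟨l₁, a, l₂, rfl, h2⟩ := hR.exchange h1
  rw [hR.wd_exchange h2] at hl
  have h3 := ih _ (by rw [← hn]; simp) _ hl rfl
  obtain ⟨c, hc⟩ := hΓ.rep_n_conj hR (rep_nd l₂) h2
  have h4 := hΓ.nm_N_T hR _ (rep_nd l₁).mem_N _
    (mul_mem (hΓ.nm_N_T hR _ (n_mem a) _ (h_mem a c)) (h_mem a (-1)))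
  have h5 := mul_mem h4 h3
  rw [← hΓ.n_sq hR, nd_append] at h5
  rw [nd_append, nd_append, nd_cons, nd_single, mul_assoc, mul_assoc,
    mul_inv_eq_iff_eq_mul.1 hc]
  simpa only [mul_assoc, inv_mul_cancel_left] using h5

theorem rep_div (h : Γ.Rep n w) (h' : Γ.Rep n' w) : n * n'⁻¹ ∈ Γ.T ∧ n⁻¹ * n' ∈ Γ.T :=
  ⟨hΓ.rep_one hR (by simpa using h.mul h'.inv), hΓ.rep_one hR (by simpa using h.inv.mul h')⟩

theorem rep_NJ (h : Γ.Rep n w) (hw : w ∈ R.WJ J) : n ∈ Γ.NJ J := by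
  obtain ⟨n', h1, h2⟩ := exists_rep' (Γ := Γ) hw
  simpa using mul_mem (T_le_NJ J (hΓ.rep_div hR h h2).1) h1

theorem chi_eq (hγ : γ ∈ R.Φ) (ht : t ∈ Γ.T) {c : kˣ} (h : t * Γ.x γ 1 * t⁻¹ = Γ.x γ c) :
    hΓ.chi γ t = c := by
  rw [hΓ.tx ht hγ, mul_one] at h
  exact Units.ext (hΓ.x_inj hR hγ h)

theorem chi_hT (γ : R.Q) (s : Fin R.r → kˣ) : hΓ.chi γ (hΓ.hT s) = ∏ i, s i ^ R.pr γ i := by
  have h1 : ∀ j, hΓ.chi (R.α j) (hΓ.hT s) = ∏ i, s i ^ R.A j i := fun j =>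
    hΓ.chi_eq hR (hR.simple j) (hΓ.hT_mem s) (by
      rw [hΓ.hT_x s (hR.simple j), mul_one, chi0_apply]; simp only [RS.pr_α])
  conv_lhs => rw [RS.eq_sum γ, hΓ.chi_sum]
  simp only [hΓ.chi_smul, h1, RS.pr_eq, ← Finset.prod_zpow, ← zpow_mul]
  rw [Finset.prod_comm]
  refine Finset.prod_congr rfl fun i _ => ?_
  rw [← ofAdd_toAdd (s i)]
  simp only [mul_comm (R.A _ _)]
  exact (map_sum (zmultiplesHom (Additive kˣ) (Additive.ofMul (s i))) _ _).symm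

theorem chi_h (γ : R.Q) (i : Fin R.r) (a : kˣ) : hΓ.chi γ (Γ.h i a) = a ^ R.pr γ i := by
  rw [← hΓ.hT_single, hΓ.chi_hT hR, ← chi0_apply, chi0_single]

theorem chi_one (γ : R.Q) : hΓ.chi γ 1 = 1 := by
  rw [← map_one hΓ.hT, hΓ.chi_hT hR]
  simp

theorem chi_mul (γ : R.Q) (ht : t ∈ Γ.T) (ht' : t' ∈ Γ.T) :
    hΓ.chi γ (t * t') = hΓ.chi γ t * hΓ.chi γ t' := by
  obtain ⟨s, rfl⟩ := hΓ.exists_hT ht
  obtain ⟨s', rfl⟩ := hΓ.exists_hT ht'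
  rw [← map_mul, hΓ.chi_hT hR, hΓ.chi_hT hR, hΓ.chi_hT hR]
  exact map_mul (chi0 R k γ) s s'

theorem chi_zpow (γ : R.Q) (ht : t ∈ Γ.T) (m : ℤ) : hΓ.chi γ (t ^ m) = hΓ.chi γ t ^ m := by
  obtain ⟨s, rfl⟩ := hΓ.exists_hT ht
  rw [← map_zpow, hΓ.chi_hT hR, hΓ.chi_hT hR]
  exact map_zpow (chi0 R k γ) s m

theorem chi_inv (γ : R.Q) (ht : t ∈ Γ.T) : hΓ.chi γ t⁻¹ = (hΓ.chi γ t)⁻¹ := by
  simpa using hΓ.chi_zpow hR γ ht (-1)

/-- the character as a homomorphism -/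
noncomputable def chiH (γ : R.Q) : Γ.T →* kˣ where
  toFun t := hΓ.chi γ t.1
  map_one' := hΓ.chi_one hR γ
  map_mul' t t' := hΓ.chi_mul hR γ t.2 t'.2

theorem chi_rep (h : Γ.Rep n w) (γ : R.Q) (ht : t ∈ Γ.T) :
    hΓ.chi (w γ) (n * t * n⁻¹) = hΓ.chi γ t := by
  have h1 : ∀ i, hΓ.chi (w (R.α i)) (n * t * n⁻¹) = hΓ.chi (R.α i) t := fun i => by
    refine hΓ.chi_eq hR (hR.map_mem h.mem_W (hR.simple i)) (hΓ.nm_N_T hR n h.mem_N t ht) ?_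
    obtain ⟨c, hc⟩ := hΓ.rep_conj hR h (hR.simple i)
    have h2 := (hc (c⁻¹ : kˣ)).1
    have h3 := (hc (hΓ.chi (R.α i) t * (c⁻¹ : kˣ))).1
    rw [Units.mul_inv] at h2
    rw [mul_left_comm, Units.mul_inv, mul_one, ← hΓ.tx ht (hR.simple i)] at h3
    rw [← h2, ← h3]
    group
  conv_rhs => rw [RS.eq_sum γ]
  rw [RS.map_eq, hΓ.chi_sum, hΓ.chi_sum]
  simp only [hΓ.chi_smul, h1]

omit hΓ hR in
theorem det_ker' {s : Fin R.r → kˣ} (h : ∀ j, ∏ i, s i ^ R.A j i = 1) : s ^ R.A.det = 1 := by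
  funext a
  have h1 : ∏ i, s i ^ R.pr (R.A.adjugate a) i = ∏ j, (∏ i, s i ^ R.A j i) ^ R.A.adjugate a j := by
    simp only [RS.pr_eq, ← Finset.prod_zpow, ← zpow_mul]
    rw [Finset.prod_comm]
    refine Finset.prod_congr rfl fun i _ => ?_
    simp only [mul_comm (R.A _ _)]
    exact map_sum (zmultiplesHom (Additive kˣ) (Additive.ofMul (s i))) _ _
  have h2 : ∀ i, R.pr (R.A.adjugate a) i = (R.A.det • (1 : Matrix _ _ ℤ)) a i := fun i => by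
    rw [← adjugate_mul]; rfl
  simp only [h, one_zpow, Finset.prod_const_one, h2] at h1
  rw [Finset.prod_eq_single a (fun i _ hi => by simp [hi.symm]) (by simp)] at h1
  simpa using h1

theorem det_ker {s : Fin R.r → kˣ} (h : ∀ j, ∏ i, s i ^ R.A j i = 1) : s ^ R.A.det = 1 := det_ker' h

theorem det_chi (ht : t ∈ Γ.T) (h : ∀ i, hΓ.chi (R.α i) t = 1) : t ^ R.A.det = 1 := by
  obtain ⟨s, rfl⟩ := hΓ.exists_hT ht
  rw [← map_zpow, det_ker' fun j => by simpa only [hΓ.chi_hT hR, RS.pr_α] using h j, map_one]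

theorem det_hT {s : Fin R.r → kˣ} (h : hΓ.hT s = 1) : s ^ R.A.det = 1 := det_ker' fun j => by
  have := hΓ.chi_hT hR (R.α j) s
  rw [h, hΓ.chi_one hR] at this
  simpa only [RS.pr_α] using this.symm

theorem T_torsion (p : ℕ) [Fact p.Prime] [CharP k p] (ht : t ∈ Γ.T) (h : t ^ p = 1) : t = 1 := by
  have hp : p.Prime := Fact.out
  obtain ⟨s, rfl⟩ := hΓ.exists_hT ht
  rw [← map_pow] at h
  have h1 : ∀ x : Fin R.r → kˣ, x ^ p = 1 → x = 1 := fun x hx => funext fun i => Units.ext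
    (frobenius_inj k p (by simpa [frobenius_def] using congrArg Units.val (congrFun hx i)))
  have h2 : 0 < orderOf s := by
    refine IsOfFinOrder.orderOf_pos (isOfFinOrder_iff_zpow_eq_one.2
      ⟨p * R.A.det, mul_ne_zero (by exact_mod_cast hp.ne_zero) hR.det, ?_⟩)
    rw [zpow_mul, zpow_natCast, hΓ.det_hT hR h]
  have h3 : p.Coprime (orderOf s) := (Nat.Prime.coprime_iff_not_dvd hp).2 fun ⟨q, hq⟩ => by
    have h4 := orderOf_dvd_of_pow_eq_one (h1 (s ^ q) (by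
      rw [← pow_mul, mul_comm, ← hq, pow_orderOf_eq_one]))
    have h5 : 0 < q := Nat.pos_of_ne_zero (by rintro rfl; omega)
    have h6 := Nat.le_of_dvd h5 h4
    have := hp.two_le
    nlinarith
  obtain ⟨m, hm⟩ := exists_pow_eq_self_of_coprime h3
  rw [← hm, map_pow, h, one_pow]

theorem central_of_chi (ht : t ∈ Γ.T) (h : ∀ i, hΓ.chi (R.α i) t = 1) (g : G) :
    t * g = g * t := by
  have : closure {g | ∃ i a, g = Γ.x (R.α i) a ∨ g = Γ.x (-R.α i) a} ≤ centralizer {t} :=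
    (closure_le _).2 (by
      rintro _ ⟨i, a, rfl | rfl⟩ _ rfl
      · exact mul_inv_eq_iff_eq_mul.1 (by rw [hΓ.tx ht (hR.simple i), h]; simp)
      · exact mul_inv_eq_iff_eq_mul.1 (by
          rw [hΓ.tx ht (hR.neg_mem (hR.simple i)), hΓ.chi_neg, h]; simp))
  exact this (hΓ.gen ▸ mem_top g) t rfl

end Ok

theorem P_mem (h : ∀ γ ∈ l, γ ∈ R.Φ ∧ (c γ ≠ 0 → γ ∈ S)) (hΓ : Γ.Ok) : Γ.P l c ∈ Γ.X S :=
  list_prod_mem fun x hx => by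
    obtain ⟨γ, hγ, rfl⟩ := List.mem_map.1 hx
    by_cases e : c γ = 0
    · rw [e, hΓ.x_zero (h γ hγ).1]
      exact one_mem _
    · exact x_mem (h γ hγ).1 ((h γ hγ).2 e) _

end RG

end Vale.Agent.P183CH
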