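import Vale.Agent.P183CH2.Tor

/-!
Normal forms in the unipotent group.
-/

set_option autoImplicit false
set_option linter.all false

namespace Vale.Agent.P183CH

open Matrix Subgroup Vale.Agent.P183A
open scoped commutatorElement

theorem exists_quot {G : Type} [Group G] {K N : Subgroup G} (hn : Nm K N) :
    ∃ (Q : Type) (_ : Group Q) (π : G → Q), (∀ a ∈ K, ∀ b ∈ K, π (a * b) = π a * π b) ∧
      ∀ a ∈ K, π a = 1 ↔ a ∈ N := by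
  classical
  have : (N.subgroupOf K).Normal := ⟨fun x hx g => hn g g.2 x hx⟩
  refine ⟨K ⧸ N.subgroupOf K, inferInstance,
    fun g => if h : g ∈ K then QuotientGroup.mk ⟨g, h⟩ else 1, fun a ha b hb => ?_, fun a ha => ?_⟩
  · simp only [dif_pos ha, dif_pos hb, dif_pos (mul_mem ha hb)]
    rfl
  · simp only [dif_pos ha]
    exact QuotientGroup.eq_one_iff _

namespace RS

variable {R : RS} {S : Set R.Q}

/-- the roots of `S` of height at least `h` -/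
def Ge (S : Set R.Q) (h : ℕ) : Set R.Q := {γ | γ ∈ S ∧ (h : ℤ) ≤ R.ht γ}

theorem Ge_sub (h : ℕ) : Ge S h ⊆ S := fun _ e => e.1

theorem Ge_succ (h : ℕ) : Ge S (h + 1) ⊆ Ge S h := fun _ e => ⟨e.1, by have := e.2; omega⟩

theorem Ok.br_Ge (hR : R.Ok) (hS : R.Cl S) (h : ℕ) : R.Br S (Ge S h) (Ge S (h + 1)) := by
  intro γ hγ δ hδ a b ha hb e
  refine ⟨hS.2 γ hγ δ hδ.1 a b ha hb e, ?_⟩
  have h1 := hR.ht_pos (hS.1 hγ)
  have h2 := hR.ht_pos (hS.1 hδ.1)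
  have h3 := hδ.2
  rw [ht_add, ht_nsmul, ht_nsmul]
  push_cast
  nlinarith

theorem Ok.cl_Ge (hR : R.Ok) (hS : R.Cl S) (h : ℕ) : R.Cl (Ge S h) :=
  ⟨(Ge_sub h).trans hS.1, fun γ hγ δ hδ a b ha hb e =>
    Ge_succ h (hR.br_Ge hS h γ hγ.1 δ hδ a b ha hb e)⟩

theorem exists_Ge (R : RS) : ∃ m : ℕ, ∀ γ ∈ R.Φ, R.ht γ < m := by
  obtain ⟨m, hm⟩ := (R.Φ.finite_toSet.image R.ht).bddAbove
  exact ⟨m.toNat + 1, fun γ hγ => by
    have := hm ⟨γ, hγ, rfl⟩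
    have := Int.self_le_toNat m
    omega⟩

theorem exists_list (hS : S ⊆ R.Pos) : ∃ l : List R.Q, l.Nodup ∧ ∀ γ, γ ∈ l ↔ γ ∈ S :=
  ⟨(Pos_finite.subset hS).toFinset.toList, Finset.nodup_toList _, fun γ => by simp⟩

end RS

namespace RG

variable {R : RS} {k : Type} [Field k] {G : Type} [Group G] {Γ : RG R k G}
  {i j : Fin R.r} {J : Set (Fin R.r)} {γ δ : R.Q} {w w' : R.Aut} {S S' S'' : Set R.Q}
  {g n n' t t' u u' : G} {l : List R.Q} {c c' : R.Q → k}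

theorem P_nil (c : R.Q → k) : Γ.P [] c = 1 := rfl

theorem P_cons (γ : R.Q) (l : List R.Q) (c : R.Q → k) :
    Γ.P (γ :: l) c = Γ.x γ (c γ) * Γ.P l c := by simp [P]

theorem P_append (l l' : List R.Q) (c : R.Q → k) : Γ.P (l ++ l') c = Γ.P l c * Γ.P l' c := by
  simp [P]

theorem P_congr (h : ∀ γ ∈ l, c γ = c' γ) : Γ.P l c = Γ.P l c' := by
  unfold P
  rw [List.map_congr_left fun γ hγ => by rw [h γ hγ]]

namespace Ok

variable (hΓ : Γ.Ok)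
include hΓ

theorem X_ind {P : G → Prop} (h1 : P 1) (h2 : ∀ γ ∈ S, γ ∈ R.Φ → ∀ a, P (Γ.x γ a))
    (h3 : ∀ a ∈ Γ.X S, ∀ b ∈ Γ.X S, P a → P b → P (a * b)) (hg : g ∈ Γ.X S) : P g := by
  induction hg using closure_induction'' with
  | one => exact h1
  | mem x hx =>
    obtain ⟨γ, a, b, c, rfl⟩ := hx
    exact h2 γ a b c
  | inv_mem x hx =>
    obtain ⟨γ, a, b, c, rfl⟩ := hx
    rw [← hΓ.x_neg b]
    exact h2 γ a b _
  | mul x y hx hy => exact h3 x hx y hy ‹_› ‹_›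

theorem P_filter (hl : ∀ γ ∈ l, γ ∈ R.Φ) (p : R.Q → Bool) (h : ∀ γ ∈ l, p γ = false → c γ = 0) :
    Γ.P (l.filter p) c = Γ.P l c := by
  induction l with
  | nil => rfl
  | cons γ l ih =>
    have := ih (fun δ hδ => hl δ (List.mem_cons_of_mem _ hδ))
      fun δ hδ => h δ (List.mem_cons_of_mem _ hδ)
    cases e : p γ
    · rw [List.filter_cons_of_neg (by simp [e]), this, P_cons, h γ List.mem_cons_self e,
        hΓ.x_zero (hl γ List.mem_cons_self), one_mul]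
    · rw [List.filter_cons_of_pos e, P_cons, P_cons, this]

theorem P_zero (hl : ∀ γ ∈ l, γ ∈ R.Φ) (h : ∀ γ ∈ l, c γ = 0) : Γ.P l c = 1 := by
  rw [← hΓ.P_filter hl (fun _ => false) fun γ hγ _ => h γ hγ]
  simp [P]

theorem P_single (hl : ∀ γ ∈ l, γ ∈ R.Φ) (hn : l.Nodup) (hδ : δ ∈ l) (h : ∀ γ, γ ≠ δ → c γ = 0) :
    Γ.P l c = Γ.x δ (c δ) := by
  obtain ⟨l₁, l₂, rfl⟩ := List.append_of_mem hδ
  rw [List.nodup_middle, List.nodup_cons, List.mem_append, not_or] at hn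
  rw [P_append, P_cons, hΓ.P_zero (fun γ e => hl γ (by simp [e])) fun γ e =>
    h γ fun e' => hn.1.1 (e' ▸ e), hΓ.P_zero (fun γ e => hl γ (by simp [e])) fun γ e =>
    h γ fun e' => hn.1.2 (e' ▸ e), one_mul, mul_one]

theorem P_eq_one (hn : l.Nodup) (hl : ∀ γ ∈ l, γ ∈ R.Pos) (h : Γ.P l c = 1) : ∀ γ ∈ l, c γ = 0 :=
  fun γ hγ => hΓ.uniq (l.map fun γ => (γ, c γ)) (by simpa [List.map_map, Function.comp_def] using hn)
    (by simpa [RS.Pos] using hl) (by simpa [P, List.map_map, Function.comp_def] using h) (γ, c γ)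
    (List.mem_map.2 ⟨γ, hγ, rfl⟩)

theorem comm_mem (hγ : γ ∈ S) (hδ : δ ∈ S') (hS : S ⊆ R.Pos) (hS' : S' ⊆ R.Pos) (h : R.Br S S' S'')
    (a b : k) : ⁅Γ.x γ a, Γ.x δ b⁆ ∈ Γ.X S'' :=
  X_mono (by
    rintro _ ⟨m, n, h1, h2, rfl⟩ e
    exact h γ hγ δ hδ m n h1 h2 e) (hΓ.comm γ (hS hγ).1 δ (hS' hδ).1 (hS hγ).2 (hS' hδ).2 a b)

variable (hR : R.Ok)
include hR

theorem nm_X (hS : S ⊆ R.Pos) (hS' : S' ⊆ R.Pos) (h : R.Br S S' S') : Nm (Γ.X S) (Γ.X S') := by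
  intro g hg
  refine hΓ.X_ind (P := fun g => ∀ y ∈ Γ.X S', g * y * g⁻¹ ∈ Γ.X S') (by simp)
    (fun γ hγ _ a y hy => conj_le rfl ?_ hy) (fun a _ b _ ha hb y hy => ?_) hg
  · rintro _ ⟨δ, h1, h2, b, rfl⟩
    simpa [commutatorElement_def] using mul_mem (hΓ.comm_mem hγ h1 hS hS' h a b) (x_mem h2 h1 b)
  · simpa [mul_assoc] using ha _ (hb y hy)

theorem comm_X (hS : S ⊆ R.Pos) (hS' : S' ⊆ R.Pos) (hS'' : S'' ⊆ R.Pos) (h : R.Br S S' S'')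
    (h1 : R.Br S S'' S'') (h2 : R.Br S' S'' S'') : ⁅Γ.X S, Γ.X S'⁆ ≤ Γ.X S'' := by
  refine commutator_le.2 fun g hg => hΓ.X_ind (P := fun g => ∀ y ∈ Γ.X S', ⁅g, y⁆ ∈ Γ.X S'')
    (by simp) (fun γ hγ _ a y hy => ?_) (fun a ha b _ h3 h4 y hy => ?_) hg
  · refine hΓ.X_ind (P := fun y => ⁅Γ.x γ a, y⁆ ∈ Γ.X S'') (by simp)
      (fun δ hδ _ b => hΓ.comm_mem hγ hδ hS hS' h a b) (fun y hy z _ h3 h4 => ?_) hy
    simpa [commutatorElement_def, mul_assoc] using mul_mem h3 (hΓ.nm_X hR hS' hS'' h2 y hy _ h4)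
  · simpa [commutatorElement_def, mul_assoc] using
      mul_mem (hΓ.nm_X hR hS hS'' h1 a ha _ (h4 y hy)) (h3 y hy)

/-- the quotient by the roots of height `> h` -/
theorem level (hS : R.Cl S) (h : ℕ) : ∃ (Q : Type) (_ : Group Q) (π : G → Q),
    (∀ a ∈ Γ.X S, ∀ b ∈ Γ.X S, π (a * b) = π a * π b) ∧
    (∀ a ∈ Γ.X S, π a = 1 ↔ a ∈ Γ.X (RS.Ge S (h + 1))) ∧
    (∀ a ∈ Γ.X S, ∀ b ∈ Γ.X S, π a = π b → a⁻¹ * b ∈ Γ.X (RS.Ge S (h + 1))) ∧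
    (∀ a ∈ Γ.X S, ∀ b ∈ Γ.X (RS.Ge S h), π a * π b = π b * π a) ∧
    ∀ (l : List R.Q) (c d : R.Q → k), (∀ γ ∈ l, γ ∈ S) → (∀ γ ∈ l, d γ ≠ 0 → γ ∈ RS.Ge S h) →
      π (Γ.P l (c + d)) = π (Γ.P l c) * π (Γ.P l d) := by
  have g1 : ∀ h, RS.Ge S h ⊆ R.Pos := fun h => (hR.cl_Ge hS h).1
  have g2 : ∀ h, R.Br S (RS.Ge S h) (RS.Ge S h) := fun h γ hγ δ hδ a b ha hb e =>
    RS.Ge_succ h (hR.br_Ge hS h γ hγ δ hδ a b ha hb e)
  have g3 : Γ.X (RS.Ge S h) ≤ Γ.X S := X_mono fun _ e _ => e.1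
  obtain ⟨Q, _, π, h1, h2⟩ := exists_quot (hΓ.nm_X hR hS.1 (g1 (h + 1)) (g2 (h + 1)))
  have h0 : π 1 = 1 := (h2 1 (one_mem _)).2 (one_mem _)
  have h3 : ∀ a ∈ Γ.X S, ∀ b ∈ Γ.X (RS.Ge S h), π a * π b = π b * π a := fun a ha b hb => by
    have h4 := hΓ.comm_X hR hS.1 (g1 h) (g1 (h + 1)) (hR.br_Ge hS h) (g2 _)
      (fun γ hγ => g2 _ γ hγ.1) (commutator_mem_commutator ha hb)
    have h5 := commutator_le.1 (commutator_le_self (Γ.X S)) a ha b (g3 hb)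
    rw [← h1 a ha b (g3 hb), ← h1 b (g3 hb) a ha, ← one_mul (π (b * a)), ← (h2 _ h5).2 h4,
      ← h1 _ h5 _ (mul_mem (g3 hb) ha)]
    congr 1
    simp [commutatorElement_def, mul_assoc]
  refine ⟨Q, inferInstance, π, h1, h2, fun a ha b hb e => (h2 _ (mul_mem (inv_mem ha) hb)).1 ?_, h3,
    fun l c d hl hd => ?_⟩
  · rw [h1 _ (inv_mem ha) b hb, ← e, ← h1 _ (inv_mem ha) a ha, inv_mul_cancel, h0]
  induction l with
  | nil => rw [P_nil, P_nil, P_nil, h0, one_mul]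
  | cons γ l ih =>
    have m1 := hl γ List.mem_cons_self
    have m2 := (hS.1 m1).1
    have m3 : ∀ δ ∈ l, δ ∈ S := fun δ hδ => hl δ (List.mem_cons_of_mem _ hδ)
    have m4 : ∀ c, Γ.P l c ∈ Γ.X S := fun c =>
      P_mem (fun δ hδ => ⟨(hS.1 (m3 δ hδ)).1, fun _ => m3 δ hδ⟩) hΓ
    have m5 : Γ.x γ (d γ) ∈ Γ.X (RS.Ge S h) := by
      by_cases e : d γ = 0
      · rw [e, hΓ.x_zero m2]
        exact one_mem _
      · exact x_mem m2 (hd γ List.mem_cons_self e) _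
    rw [P_cons, P_cons, P_cons, h1 _ (x_mem m2 m1 _) _ (m4 _), h1 _ (x_mem m2 m1 _) _ (m4 _),
      h1 _ (x_mem m2 m1 _) _ (m4 _), ih m3 fun δ hδ => hd δ (List.mem_cons_of_mem _ hδ),
      Pi.add_apply, hΓ.add γ m2, h1 _ (x_mem m2 m1 _) _ (x_mem m2 m1 _), mul_assoc, mul_assoc,
      ← mul_assoc (π (Γ.P l c)), h3 _ (m4 c) _ m5, mul_assoc]

omit hR in
theorem eq_one_of_Ge {m : ℕ} (hm : ∀ γ ∈ R.Φ, R.ht γ < m) (hg : g ∈ Γ.X (RS.Ge S m)) : g = 1 :=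
  mem_bot.1 ((X_le fun γ h1 h2 => absurd h1.2 (not_le.2 (hm γ h2)) : _ ≤ ⊥) hg)

theorem exists_P (hS : R.Cl S) (hn : l.Nodup) (hl : ∀ γ, γ ∈ l ↔ γ ∈ S) (hg : g ∈ Γ.X S) :
    ∃ c, g = Γ.P l c := by
  classical
  have m1 : ∀ γ ∈ l, γ ∈ R.Φ := fun γ hγ => (hS.1 ((hl γ).1 hγ)).1
  have m4 : ∀ c, Γ.P l c ∈ Γ.X S := fun c => P_mem (fun δ hδ => ⟨m1 δ hδ, fun _ => (hl δ).1 hδ⟩) hΓ
  have key : ∀ h : ℕ, ∃ c, (Γ.P l c)⁻¹ * g ∈ Γ.X (RS.Ge S h) := by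
    intro h
    induction h with
    | zero =>
      exact ⟨0, X_mono (S' := RS.Ge S 0) (fun γ e _ => ⟨e, (hR.ht_pos (hS.1 e)).le⟩)
        (mul_mem (inv_mem (m4 0)) hg)⟩
    | succ h ih =>
      obtain ⟨c, hc⟩ := ih
      obtain ⟨Q, _, π, h1, -, h2, -, h3⟩ := hΓ.level hR hS h
      have g3 : Γ.X (RS.Ge S h) ≤ Γ.X S := X_mono fun _ e _ => e.1
      obtain ⟨d, d1, d2⟩ := hΓ.X_ind (P := fun g => ∃ d : R.Q → k,
        (∀ γ ∈ l, d γ ≠ 0 → γ ∈ RS.Ge S h) ∧ π (Γ.P l d) = π g)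
        ⟨0, by simp, by rw [hΓ.P_zero m1 (by simp)]⟩
        (fun δ hδ _ a => ⟨fun γ => if γ = δ then a else 0, fun γ _ e => by
          by_contra e'
          exact e (if_neg fun e'' : γ = δ => e' (e'' ▸ hδ)), by
          rw [hΓ.P_single m1 hn ((hl δ).2 hδ.1) fun γ e => if_neg e, if_pos rfl]⟩)
        (fun a ha b hb ⟨d, d1, d2⟩ ⟨d', d1', d2'⟩ => ⟨d + d', fun γ hγ e => by
          by_cases e' : d γ = 0
          · exact d1' γ hγ (by simpa [e'] using e)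
          · exact d1 γ hγ e', by
          rw [h3 l d d' (fun γ => (hl γ).1) d1', d2, d2', h1 a (g3 ha) b (g3 hb)]⟩) hc
      refine ⟨c + d, h2 _ (m4 _) _ hg ?_⟩
      rw [h3 l c d (fun γ => (hl γ).1) d1, d2, ← h1 _ (m4 c) _ (g3 hc), mul_inv_cancel_left]
  obtain ⟨m, hm⟩ := R.exists_Ge
  obtain ⟨c, hc⟩ := key m
  exact ⟨c, (inv_mul_eq_one.1 (hΓ.eq_one_of_Ge hm hc)).symm⟩

theorem P_inj (hn : l.Nodup) (hl : ∀ γ ∈ l, γ ∈ R.Pos) (h : Γ.P l c = Γ.P l c') :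
    ∀ γ ∈ l, c γ = c' γ := by
  classical
  have m1 : ∀ γ ∈ l, γ ∈ R.Φ := fun γ hγ => (hl γ hγ).1
  have m4 : ∀ c, Γ.P l c ∈ Γ.X R.Pos := fun c => P_mem (fun δ hδ => ⟨m1 δ hδ, fun _ => hl δ hδ⟩) hΓ
  have key : ∀ h : ℕ, ∀ γ ∈ l, R.ht γ < h → c γ = c' γ := by
    intro m
    induction m with
    | zero => exact fun γ hγ e => absurd e (not_lt.2 (hR.ht_pos (hl γ hγ)).le)
    | succ m ih =>
      obtain ⟨Q, _, π, h1, h2, -, -, h3⟩ := hΓ.level hR RS.cl_Pos m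
      let d1 : R.Q → k := fun γ => if R.ht γ = m then c' γ - c γ else 0
      let d2 : R.Q → k := fun γ => if R.ht γ = m then 0 else c' γ - c γ
      have e1 : c' = c + d1 + d2 := funext fun γ => by
        by_cases e : R.ht γ = m <;> simp [d1, d2, e]
      have e2 : ∀ γ ∈ l, d2 γ ≠ 0 → γ ∈ RS.Ge R.Pos (m + 1) := fun γ hγ e => ⟨hl γ hγ, by
        by_contra e'
        by_cases e'' : R.ht γ = m
        · exact e (if_pos e'')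
        · exact e ((if_neg e'').trans (by rw [ih γ hγ (by omega), sub_self]))⟩
      rw [e1] at h
      have e3 := congrArg π h
      rw [h3 l _ d2 hl fun γ hγ e => RS.Ge_succ m (e2 γ hγ e), h3 l _ d1 hl fun γ hγ e =>
        ⟨hl γ hγ, by
          by_contra e'
          exact e (if_neg fun e'' => e' e''.ge)⟩,
        (h2 _ (m4 d2)).2 (P_mem (fun γ hγ => ⟨m1 γ hγ, e2 γ hγ⟩) hΓ), mul_one, left_eq_mul] at e3
      obtain ⟨l', n1, n2⟩ := RS.exists_list (hR.cl_Ge RS.cl_Pos (m + 1)).1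
      obtain ⟨e, he⟩ := hΓ.exists_P hR (hR.cl_Ge RS.cl_Pos (m + 1)) n1 n2
        (inv_mem ((h2 _ (m4 d1)).1 e3))
      have n3 : ∀ γ ∈ l', R.ht γ ≠ m := fun γ hγ => by
        have := ((n2 γ).1 hγ).2
        omega
      have e4 := hΓ.P_eq_one (l := l.filter (fun γ => R.ht γ = m) ++ l')
        (c := fun γ => if R.ht γ = m then c' γ - c γ else e γ)
        (List.Nodup.append (hn.filter _) n1 fun γ a b => n3 γ b (by simpa using (List.mem_filter.1 a).2))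
        (fun γ hγ => (List.mem_append.1 hγ).elim (fun a => hl γ (List.mem_filter.1 a).1)
          fun a => ((n2 γ).1 a).1) (by
          rw [P_append, P_congr (c' := d1) fun γ hγ => by
            have : R.ht γ = m := by simpa using (List.mem_filter.1 hγ).2
            simp [d1, this], P_congr (l := l') (c' := e) fun γ hγ => if_neg (n3 γ hγ),
            hΓ.P_filter m1 _ fun γ _ a => if_neg (by simpa using a), ← he, mul_inv_cancel])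
      intro γ hγ hlt
      by_cases e' : R.ht γ = m
      · have := e4 γ (List.mem_append_left _ (List.mem_filter.2 ⟨hγ, by simpa using e'⟩))
        rw [if_pos e', sub_eq_zero] at this
        exact this.symm
      · exact ih γ hγ (by omega)
  obtain ⟨m, hm⟩ := R.exists_Ge
  exact fun γ hγ => key m γ hγ (hm γ (m1 γ hγ))

theorem P_mem_iff (hS : R.Cl S) (hn : l.Nodup) (hl : ∀ γ ∈ l, γ ∈ R.Pos) :
    Γ.P l c ∈ Γ.X S ↔ ∀ γ ∈ l, c γ ≠ 0 → γ ∈ S := by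
  classical
  refine ⟨fun h γ hγ e => ?_, fun h => P_mem (fun γ hγ => ⟨(hl γ hγ).1, h γ hγ⟩) hΓ⟩
  obtain ⟨r, r1, r2⟩ := RS.exists_list (S := {γ | γ ∈ R.Pos ∧ γ ∉ l}) fun _ h => h.1
  have n1 : (l ++ r).Nodup := hn.append r1 fun γ a b => ((r2 γ).1 b).2 a
  have n2 : ∀ γ ∈ l ++ r, γ ∈ R.Pos := fun γ hγ =>
    (List.mem_append.1 hγ).elim (hl γ) fun a => ((r2 γ).1 a).1
  obtain ⟨d, hd⟩ := hΓ.exists_P hR hS (n1.filter fun γ => γ ∈ S) (fun γ => by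
    rw [List.mem_filter, decide_eq_true_iff, List.mem_append, r2]
    exact ⟨fun a => a.2, fun a => ⟨(em _).imp id fun b => ⟨hS.1 a, b⟩, a⟩⟩) h
  have := hΓ.P_inj hR (c := fun γ => if γ ∈ l then c γ else 0)
    (c' := fun γ => if γ ∈ S then d γ else 0) n1 n2 (by
      rw [← hΓ.P_filter (c := fun γ => if γ ∈ S then d γ else 0) (fun γ a => (n2 γ a).1)
        (fun γ => γ ∈ S) fun γ _ a => if_neg (by simpa using a),
        P_congr (c := fun γ => if γ ∈ S then d γ else 0) (c' := d) fun γ a =>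
          if_pos (by simpa using (List.mem_filter.1 a).2), ← hd, P_append,
        P_congr (c' := c) fun γ a => if_pos a, hΓ.P_zero (l := r) (fun γ a => ((r2 γ).1 a).1.1)
          fun γ a => if_neg ((r2 γ).1 a).2, mul_one]) γ (List.mem_append_left _ hγ)
  by_contra e'
  rw [if_pos hγ, if_neg e'] at this
  exact e this

theorem x_mem_iff (hS : R.Cl S) (hγ : γ ∈ R.Pos) {a : k} (ha : a ≠ 0) :
    Γ.x γ a ∈ Γ.X S ↔ γ ∈ S := by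
  have := hΓ.P_mem_iff hR (l := [γ]) (c := fun _ => a) hS (by simp) (by simpa using hγ)
  simpa [P, ha] using this

theorem X_inf (hS : R.Cl S) (hS' : R.Cl S') : Γ.X S ⊓ Γ.X S' = Γ.X (S ∩ S') := by
  refine le_antisymm (fun g hg => ?_)
    (le_inf (X_mono fun _ h _ => h.1) (X_mono fun _ h _ => h.2))
  obtain ⟨l, h1, h2⟩ := RS.exists_list (R := R) le_rfl
  obtain ⟨c, rfl⟩ := hΓ.exists_P hR RS.cl_Pos h1 h2 (U_eq (Γ := Γ) ▸ X_le_U hS.1 hg.1)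
  have h3 := fun γ => (h2 γ).1
  exact (hΓ.P_mem_iff hR (hS.inter hS') h1 h3).2 fun γ hγ e =>
    ⟨(hΓ.P_mem_iff hR hS h1 h3).1 hg.1 γ hγ e, (hΓ.P_mem_iff hR hS' h1 h3).1 hg.2 γ hγ e⟩

theorem X_split (hS : R.Cl S'') (h : S'' ⊆ S ∪ S') (hg : g ∈ Γ.X S'') :
    ∃ a ∈ Γ.X (S'' ∩ S), ∃ b ∈ Γ.X (S'' ∩ S'), g = a * b := by
  obtain ⟨l, h1, h2⟩ := RS.exists_list (S := S'' ∩ S) fun _ e => hS.1 e.1
  obtain ⟨r, r1, r2⟩ := RS.exists_list (S := S'' \ S) fun _ e => hS.1 e.1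
  obtain ⟨c, rfl⟩ := hΓ.exists_P hR hS (h1.append r1 fun γ a b => ((r2 γ).1 b).2 ((h2 γ).1 a).2)
    (fun γ => by rw [List.mem_append, h2, r2, ← Set.mem_union, Set.inter_union_diff]) hg
  exact ⟨_, P_mem (fun γ a => ⟨(hS.1 ((h2 γ).1 a).1).1, fun _ => (h2 γ).1 a⟩) hΓ, _,
    P_mem (fun γ a => ⟨(hS.1 ((r2 γ).1 a).1).1, fun _ =>
      ⟨((r2 γ).1 a).1, (h ((r2 γ).1 a).1).resolve_left ((r2 γ).1 a).2⟩⟩) hΓ, P_append _ _ _⟩

omit hR in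
theorem x_pow (hγ : γ ∈ R.Φ) (a : k) (m : ℕ) : Γ.x γ a ^ m = Γ.x γ (m * a) := by
  induction m with
  | zero => simp [hΓ.x_zero hγ]
  | succ m ih => rw [pow_succ, ih, ← hΓ.add γ hγ]; congr 1; push_cast; ring

theorem U_pow (p : ℕ) [Fact p.Prime] [CharP k p] : ∃ m : ℕ, ∀ u ∈ Γ.U, u ^ p ^ m = 1 := by
  have key : ∀ m : ℕ, ∀ u ∈ Γ.U, u ^ p ^ m ∈ Γ.X (RS.Ge R.Pos m) := by
    intro m
    induction m with
    | zero =>
      exact fun u hu => by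
        simpa using X_mono (S' := RS.Ge R.Pos 0) (fun γ e e' => ⟨⟨e', e⟩, RS.ht_nonneg e⟩) hu
    | succ m ih =>
      intro u hu
      obtain ⟨Q, _, π, h1, h2, -, h3, -⟩ := hΓ.level hR RS.cl_Pos m
      have g3 : Γ.X (RS.Ge R.Pos m) ≤ Γ.X R.Pos := X_mono fun _ e _ => e.1
      have h0 : π 1 = 1 := (h2 1 (one_mem _)).2 (one_mem _)
      have h4 : ∀ a ∈ Γ.X R.Pos, ∀ n : ℕ, π (a ^ n) = π a ^ n := fun a ha n => by
        induction n with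
        | zero => rw [pow_zero, pow_zero, h0]
        | succ n ih => rw [pow_succ, pow_succ, h1 _ (pow_mem ha n) a ha, ih]
      rw [pow_succ, pow_mul, ← h2 _ (pow_mem (g3 (ih u hu)) p), h4 _ (g3 (ih u hu))]
      refine hΓ.X_ind (P := fun g => π g ^ p = 1) (by rw [h0, one_pow]) (fun γ a b c => ?_)
        (fun a ha b hb e e' => ?_) (ih u hu)
      · rw [← h4 _ (x_mem b a.1 c), hΓ.x_pow b, CharP.cast_eq_zero, zero_mul, hΓ.x_zero b, h0]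
      · rw [h1 a (g3 ha) b (g3 hb), Commute.mul_pow (h3 a (g3 ha) b hb), e, e', one_mul]
  obtain ⟨m, hm⟩ := R.exists_Ge
  exact ⟨m, fun u hu => hΓ.eq_one_of_Ge hm (key m u hu)⟩

theorem conj_U (h : Γ.Rep n w) (hu : u ∈ Γ.X {γ | γ ∈ R.Φ ∧ 0 ≤ γ ∧ 0 ≤ w γ}) :
    n * u * n⁻¹ ∈ Γ.U := hΓ.rep_X hR h (fun _ e _ => e.2.2) hu

theorem conj_V (h : Γ.Rep n w) (hu : u ∈ Γ.X (R.Inv w)) : n * u * n⁻¹ ∈ Γ.V :=
  hΓ.rep_X hR h (fun _ e _ => e.2.2) hu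

theorem conj_mem_U (h : Γ.Rep n w) (hu : u ∈ Γ.U) :
    n * u * n⁻¹ ∈ Γ.U ↔ u ∈ Γ.X {γ | γ ∈ R.Φ ∧ 0 ≤ γ ∧ 0 ≤ w γ} := by
  refine ⟨fun e => ?_, hΓ.conj_U hR h⟩
  obtain ⟨a, ha, b, hb, rfl⟩ := hΓ.X_split hR (S := {γ | γ ∈ R.Φ ∧ 0 ≤ γ ∧ 0 ≤ w γ}) (S' := R.Inv w)
    RS.cl_Pos (fun γ e => (hR.sign' h.mem_W e.1).imp (fun a => ⟨e.1, e.2, a⟩) fun a => ⟨e.1, e.2, a⟩)
    (U_eq (Γ := Γ) ▸ hu)
  have ha' := X_mono (fun _ e _ => e.2) ha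
  have := hΓ.U_inf_V (by simpa [mul_assoc] using mul_mem (inv_mem (hΓ.conj_U hR h ha')) e)
    (hΓ.conj_V hR h (X_mono (fun _ e _ => e.2) hb))
  rwa [conj_eq_one_iff.1 this, mul_one]

theorem conj_mem_V (h : Γ.Rep n w) (hu : u ∈ Γ.U) :
    n * u * n⁻¹ ∈ Γ.V ↔ u ∈ Γ.X (R.Inv w) := by
  refine ⟨fun e => ?_, hΓ.conj_V hR h⟩
  obtain ⟨a, ha, b, hb, rfl⟩ := hΓ.X_split hR (S' := {γ | γ ∈ R.Φ ∧ 0 ≤ γ ∧ 0 ≤ w γ}) (S := R.Inv w)
    RS.cl_Pos (fun γ e => ((hR.sign' h.mem_W e.1).imp (fun a => ⟨e.1, e.2, a⟩)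
      fun a => ⟨e.1, e.2, a⟩).symm) (U_eq (Γ := Γ) ▸ hu)
  have ha' := X_mono (fun _ e _ => e.2) ha
  have := hΓ.U_inf_V (hΓ.conj_U hR h (X_mono (fun _ e _ => e.2) hb))
    (by simpa [mul_assoc] using mul_mem (inv_mem (hΓ.conj_V hR h ha')) e)
  rwa [conj_eq_one_iff.1 this, mul_one]

theorem Lg_U (h : Γ.Rep n w) (hw : R.Lg J w) (hg : g ∈ Γ.UJ J) : n * g * n⁻¹ ∈ Γ.VJ J :=
  hΓ.rep_X hR h (fun _ e _ => ⟨hR.Lg_neg hw e.2.1 e.2.2, hR.map_In hw.1 e.2.2⟩) hg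

theorem Lg_V (h : Γ.Rep n w) (hw : R.Lg J w) (hg : g ∈ Γ.VJ J) : n * g * n⁻¹ ∈ Γ.UJ J :=
  hΓ.rep_X hR h (fun γ e e' => by
    simpa using hR.Lg_PJ hw ⟨hR.neg_mem e', neg_nonneg.2 e.1, e.2.neg⟩) hg

theorem Lg_conj (h : Γ.Rep n w) (hw : R.Lg J w) : g ∈ Γ.UJ J ↔ n * g * n⁻¹ ∈ Γ.VJ J :=
  ⟨hΓ.Lg_U hR h hw, fun e => by
    have h' : Γ.Rep n⁻¹ w := hR.Lg_inv hw ▸ h.inv
    simpa [mul_assoc] using hΓ.Lg_V hR h' hw e⟩

theorem Lg_conj' (h : Γ.Rep n w) (hw : R.Lg J w) : g ∈ Γ.VJ J ↔ n * g * n⁻¹ ∈ Γ.UJ J :=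
  ⟨hΓ.Lg_V hR h hw, fun e => by
    have h' : Γ.Rep n⁻¹ w := hR.Lg_inv hw ▸ h.inv
    simpa [mul_assoc] using hΓ.Lg_U hR h' hw e⟩

end Ok

end RG

end Vale.Agent.P183CH
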