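import Vale.Agent.P183CH2.Defs
import Mathlib.Data.Set.Card
import Mathlib.Algebra.BigOperators.Finprod
import Mathlib.Algebra.Order.BigOperators.Ring.Finset
import Mathlib.Tactic.Linarith

/-!
The Weyl group: invariant form, exchange condition.
-/

set_option autoImplicit false
set_option linter.all false

namespace Vale.Agent.P183CH

open Matrix Subgroup

namespace RS

variable {R : RS} {i j : Fin R.r} {J : Set (Fin R.r)} {γ δ : R.Q} {w w' : R.Aut} {S S' : Set R.Q}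

theorem pr_add (γ δ : R.Q) (j : Fin R.r) : R.pr (γ + δ) j = R.pr γ j + R.pr δ j :=
  map_add (R.prL j) γ δ

theorem pr_neg (γ : R.Q) (j : Fin R.r) : R.pr (-γ) j = -R.pr γ j := map_neg (R.prL j) γ

theorem pr_smul (m : ℤ) (γ : R.Q) (j : Fin R.r) : R.pr (m • γ) j = m * R.pr γ j :=
  map_smul (R.prL j) m γ

theorem pr_eq (γ : R.Q) (j : Fin R.r) : R.pr γ j = ∑ i, γ i * R.A i j := rfl

theorem α_apply (i j : Fin R.r) : R.α i j = if j = i then 1 else 0 := by simp [α, Pi.single_apply]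

theorem α_self (i : Fin R.r) : R.α i i = 1 := by simp [α]

theorem α_ne (h : j ≠ i) : R.α i j = 0 := by simp [α_apply, h]

theorem eq_sum (γ : R.Q) : γ = ∑ i, γ i • R.α i := by
  ext j
  simp [α_apply, Finset.sum_apply]

theorem α_nonneg (i : Fin R.r) : 0 ≤ R.α i := fun j => by
  rw [α_apply]; split_ifs <;> simp

theorem α_inj : Function.Injective R.α := fun i j h => by
  by_contra c
  have := congrFun h i
  rw [α_self, α_ne c] at this
  exact one_ne_zero this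

theorem map_eq (w : R.Aut) (γ : R.Q) : w γ = ∑ i, γ i • w (R.α i) := by
  conv_lhs => rw [eq_sum γ, map_sum]
  simp only [map_smul]

theorem aut_ext (h : ∀ i, w (R.α i) = w' (R.α i)) : w = w' := LinearEquiv.ext fun γ => by
  rw [map_eq w, map_eq w']
  simp only [h]

theorem mul_app (w w' : R.Aut) (γ : R.Q) : (w * w') γ = w (w' γ) := rfl

theorem one_app (γ : R.Q) : (1 : R.Aut) γ = γ := rfl

theorem inv_app (w : R.Aut) (γ : R.Q) : w⁻¹ (w γ) = γ := w.symm_apply_apply γ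

theorem app_inv (w : R.Aut) (γ : R.Q) : w (w⁻¹ γ) = γ := w.apply_symm_apply γ

theorem sE_mem (h : j ∈ J) : R.sE j ∈ R.WJ J := subset_closure ⟨j, h, rfl⟩

theorem sE_mem_W (j : Fin R.r) : R.sE j ∈ R.W := sE_mem trivial

theorem WJ_le (J : Set (Fin R.r)) : R.WJ J ≤ R.W := closure_mono (Set.image_mono J.subset_univ)

theorem wd_nil : R.wd [] = 1 := rfl

theorem wd_cons (i : Fin R.r) (l : List (Fin R.r)) : R.wd (i :: l) = R.sE i * R.wd l := by
  simp [wd]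

theorem wd_append (l l' : List (Fin R.r)) : R.wd (l ++ l') = R.wd l * R.wd l' := by simp [wd]

theorem wd_single (i : Fin R.r) : R.wd [i] = R.sE i := by simp [wd]

theorem wd_mem {l : List (Fin R.r)} (h : ∀ i ∈ l, i ∈ J) : R.wd l ∈ R.WJ J :=
  list_prod_mem fun x hx => by
    obtain ⟨i, hi, rfl⟩ := List.mem_map.1 hx
    exact sE_mem (h i hi)

theorem wd_mem_W (l : List (Fin R.r)) : R.wd l ∈ R.W := wd_mem fun _ _ => trivial

theorem ht_add (γ δ : R.Q) : R.ht (γ + δ) = R.ht γ + R.ht δ := by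
  simp [ht, Finset.sum_add_distrib]

theorem ht_nsmul (a : ℕ) (γ : R.Q) : R.ht (a • γ) = a * R.ht γ := by simp [ht, Finset.mul_sum]

theorem ht_smul (a : ℤ) (γ : R.Q) : R.ht (a • γ) = a * R.ht γ := by simp [ht, Finset.mul_sum]

theorem ht_α (i : Fin R.r) : R.ht (R.α i) = 1 := by simp [ht, α_apply]

theorem ht_nonneg (h : 0 ≤ γ) : 0 ≤ R.ht γ := Finset.sum_nonneg fun i _ => h i

theorem In.add (h : R.In J γ) (h' : R.In J δ) : R.In J (γ + δ) := fun i hi => by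
  simp [h i hi, h' i hi]

theorem In.nsmul (h : R.In J γ) (a : ℕ) : R.In J (a • γ) := fun i hi => by simp [h i hi]

theorem In.smul (h : R.In J γ) (a : ℤ) : R.In J (a • γ) := fun i hi => by simp [h i hi]

theorem In.neg (h : R.In J γ) : R.In J (-γ) := fun i hi => by simp [h i hi]

theorem In_α (h : j ∈ J) : R.In J (R.α j) := fun i hi => α_ne fun e => hi (e ▸ h)

theorem mem_of_In (h : R.In J (R.α j)) : j ∈ J := by
  by_contra c
  exact one_ne_zero ((α_self j).symm.trans (h j c))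

theorem In_univ (γ : R.Q) : R.In Set.univ γ := fun i hi => absurd trivial hi

theorem comb_nonneg (h : 0 ≤ γ) (h' : 0 ≤ δ) (a b : ℕ) : 0 ≤ a • γ + b • δ :=
  add_nonneg (nsmul_nonneg h a) (nsmul_nonneg h' b)

theorem cl_Pos : R.Cl R.Pos :=
  ⟨le_rfl, fun _ h _ h' a b _ _ e => ⟨e, comb_nonneg h.2 h'.2 a b⟩⟩

theorem cl_PJ (J : Set (Fin R.r)) : R.Cl (R.PJ J) :=
  ⟨fun _ h => ⟨h.1, h.2.1⟩, fun _ h _ h' a b _ _ e =>
    ⟨e, comb_nonneg h.2.1 h'.2.1 a b, (h.2.2.nsmul a).add (h'.2.2.nsmul b)⟩⟩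

theorem cl_Inv (w : R.Aut) : R.Cl (R.Inv w) :=
  ⟨fun _ h => ⟨h.1, h.2.1⟩, fun _ h _ h' a b _ _ e => ⟨e, comb_nonneg h.2.1 h'.2.1 a b, by
    rw [map_add, map_nsmul, map_nsmul]
    exact add_nonpos (nsmul_nonpos h.2.2 a) (nsmul_nonpos h'.2.2 b)⟩⟩

theorem cl_pos (w : R.Aut) : R.Cl {γ | γ ∈ R.Φ ∧ 0 ≤ γ ∧ 0 ≤ w γ} :=
  ⟨fun _ h => ⟨h.1, h.2.1⟩, fun _ h _ h' a b _ _ e => ⟨e, comb_nonneg h.2.1 h'.2.1 a b, by
    rw [map_add, map_nsmul, map_nsmul]
    exact comb_nonneg h.2.2 h'.2.2 a b⟩⟩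

theorem Cl.inter (h : R.Cl S) (h' : R.Cl S') : R.Cl (S ∩ S') :=
  ⟨fun _ e => h.1 e.1, fun γ h1 δ h2 a b ha hb e =>
    ⟨h.2 γ h1.1 δ h2.1 a b ha hb e, h'.2 γ h1.2 δ h2.2 a b ha hb e⟩⟩

theorem PJ_univ : R.PJ Set.univ = R.Pos :=
  Set.ext fun γ => ⟨fun h => ⟨h.1, h.2.1⟩, fun h => ⟨h.1, h.2, In_univ γ⟩⟩

theorem Pos_finite : R.Pos.Finite := R.Φ.finite_toSet.subset fun _ h => h.1

theorem Inv_finite (w : R.Aut) : (R.Inv w).Finite := R.Φ.finite_toSet.subset fun _ h => h.1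

namespace Ok

variable (hR : R.Ok)
include hR

theorem sE_apply (i : Fin R.r) (γ : R.Q) : R.sE i γ = R.s i γ := by
  rw [sE, dif_pos (hR.diag i)]
  rfl

theorem sE_eq (i : Fin R.r) (γ : R.Q) : R.sE i γ = γ - R.pr γ i • R.α i := hR.sE_apply i γ

theorem sE_mul_self (i : Fin R.r) : R.sE i * R.sE i = 1 := LinearEquiv.ext fun γ => by
  rw [mul_app, hR.sE_apply, hR.sE_apply]
  exact R.sL_invol (hR.diag i) γ

theorem sE_inv (i : Fin R.r) : (R.sE i)⁻¹ = R.sE i := inv_eq_of_mul_eq_one_right (hR.sE_mul_self i)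

theorem sE_sE (i : Fin R.r) (γ : R.Q) : R.sE i (R.sE i γ) = γ := by
  rw [← mul_app, hR.sE_mul_self, one_app]

theorem sE_α (i : Fin R.r) : R.sE i (R.α i) = -R.α i := by
  rw [hR.sE_eq, pr_α, hR.diag]
  module

theorem exists_wd (hw : w ∈ R.WJ J) : ∃ l : List (Fin R.r), (∀ i ∈ l, i ∈ J) ∧ w = R.wd l := by
  induction hw using closure_induction'' with
  | one => exact ⟨[], by simp, rfl⟩
  | mem x hx =>
    obtain ⟨i, hi, rfl⟩ := hx
    exact ⟨[i], by simpa using hi, (wd_single i).symm⟩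
  | inv_mem x hx =>
    obtain ⟨i, hi, rfl⟩ := hx
    exact ⟨[i], by simpa using hi, by rw [wd_single, hR.sE_inv]⟩
  | mul x y _ _ hx hy =>
    obtain ⟨l, h1, rfl⟩ := hx
    obtain ⟨l', h2, rfl⟩ := hy
    exact ⟨l ++ l', fun i hi => (List.mem_append.1 hi).elim (h1 i) (h2 i), (wd_append _ _).symm⟩

theorem map_mem (hw : w ∈ R.W) (hγ : γ ∈ R.Φ) : w γ ∈ R.Φ := by
  obtain ⟨l, -, rfl⟩ := hR.exists_wd hw
  induction l with
  | nil => exact hγ
  | cons i l ih =>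
    rw [wd_cons, mul_app, hR.sE_apply]
    exact hR.refl i _ (ih (wd_mem_W l))

theorem exists_conj (hγ : γ ∈ R.Φ) : ∃ w ∈ R.W, ∃ i, γ = w (R.α i) := by
  obtain ⟨l, i, rfl⟩ := hR.conj γ hγ
  refine ⟨R.wd l, wd_mem_W l, i, ?_⟩
  clear hγ
  induction l with
  | nil => rfl
  | cons j l ih => rw [wd_cons, mul_app, hR.sE_apply, ← ih, List.foldr_cons]

theorem neg_mem (hγ : γ ∈ R.Φ) : -γ ∈ R.Φ := by
  obtain ⟨w, hw, i, rfl⟩ := hR.exists_conj hγ
  rw [← map_neg, ← hR.sE_α]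
  exact hR.map_mem hw (hR.map_mem (sE_mem_W i) (hR.simple i))

theorem not_both (hγ : γ ∈ R.Φ) (h1 : 0 ≤ γ) (h2 : γ ≤ 0) : False :=
  (hR.sign γ hγ).1 (le_antisymm h2 h1)

theorem sign' (hw : w ∈ R.W) (hγ : γ ∈ R.Φ) : 0 ≤ w γ ∨ w γ ≤ 0 := (hR.sign _ (hR.map_mem hw hγ)).2

theorem α_pos (i : Fin R.r) : R.α i ∈ R.Pos := ⟨hR.simple i, α_nonneg i⟩

theorem exists_pos (hγ : γ ∈ R.Pos) : ∃ i, 0 < γ i := by
  by_contra c
  push Not at c
  exact hR.not_both hγ.1 hγ.2 c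

theorem pos_of_coord (hγ : γ ∈ R.Φ) (h : 0 < γ i) : γ ∈ R.Pos :=
  ⟨hγ, (hR.sign γ hγ).2.resolve_right fun c => (c i).not_gt h⟩

theorem ht_pos (hγ : γ ∈ R.Pos) : 0 < R.ht γ :=
  let ⟨i, hi⟩ := hR.exists_pos hγ
  Finset.sum_pos' (fun j _ => hγ.2 j) ⟨i, Finset.mem_univ _, hi⟩

theorem finite_W : Finite R.W :=
  Finite.of_injective (fun (w : R.W) (i : Fin R.r) =>
    (⟨w.1 (R.α i), hR.map_mem w.2 (hR.simple i)⟩ : R.Φ)) fun _ _ h =>
    Subtype.ext (aut_ext fun i => congrArg Subtype.val (congrFun h i))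

theorem A_nonpos (h : i ≠ j) : R.A i j ≤ 0 := by
  have h1 := (hR.pos_of_coord (i := i) (hR.map_mem (sE_mem_W j) (hR.simple i)) (by
    rw [hR.sE_eq]; simp [α_self, α_ne h])).2 j
  rw [hR.sE_eq, pr_α] at h1
  simpa [α_self, α_ne h.symm] using h1

theorem B_eq [Fintype R.W] (γ δ : R.Q) : R.B γ δ = ∑ w : R.W, w.1 γ ⬝ᵥ w.1 δ :=
  finsum_eq_sum_of_fintype _

theorem B_comm (γ δ : R.Q) : R.B γ δ = R.B δ γ := by simp only [B, dotProduct_comm]

theorem B_add (γ γ' δ : R.Q) : R.B (γ + γ') δ = R.B γ δ + R.B γ' δ := by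
  have := hR.finite_W
  have := Fintype.ofFinite R.W
  simp only [hR.B_eq, map_add, add_dotProduct, Finset.sum_add_distrib]

theorem B_smul (m : ℤ) (γ δ : R.Q) : R.B (m • γ) δ = m * R.B γ δ := by
  have := hR.finite_W
  have := Fintype.ofFinite R.W
  simp only [hR.B_eq, map_smul, smul_dotProduct, smul_eq_mul, Finset.mul_sum]

theorem B_neg (γ δ : R.Q) : R.B (-γ) δ = -R.B γ δ := by simpa using hR.B_smul (-1) γ δ

theorem B_sum (γ δ : R.Q) : R.B γ δ = ∑ i, γ i * R.B (R.α i) δ := by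
  have := hR.finite_W
  have := Fintype.ofFinite R.W
  simp only [hR.B_eq, Finset.mul_sum]
  rw [Finset.sum_comm]
  refine Finset.sum_congr rfl fun w _ => ?_
  rw [map_eq, sum_dotProduct]
  simp only [smul_dotProduct, smul_eq_mul]

theorem B_pos (h : γ ≠ 0) : 0 < R.B γ γ := by
  have := hR.finite_W
  have := Fintype.ofFinite R.W
  rw [hR.B_eq]
  refine Finset.sum_pos' (fun w _ => Finset.sum_nonneg fun i _ => mul_self_nonneg _)
    ⟨1, Finset.mem_univ _, ?_⟩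
  obtain ⟨i, hi⟩ := Function.ne_iff.1 h
  exact Finset.sum_pos' (fun i _ => mul_self_nonneg _) ⟨i, Finset.mem_univ _, mul_self_pos.2 hi⟩

theorem B_inv (hw : w ∈ R.W) (γ δ : R.Q) : R.B (w γ) (w δ) = R.B γ δ := by
  have := hR.finite_W
  have := Fintype.ofFinite R.W
  rw [hR.B_eq, hR.B_eq]
  exact Fintype.sum_equiv (Equiv.mulRight (⟨w, hw⟩ : R.W)) _ _ fun _ => rfl

theorem B_α_pos (i : Fin R.r) : 0 < R.B (R.α i) (R.α i) := hR.B_pos (hR.sign _ (hR.simple i)).1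

theorem pr_B (γ : R.Q) (i : Fin R.r) : R.pr γ i * R.B (R.α i) (R.α i) = 2 * R.B γ (R.α i) := by
  have h := hR.B_inv (sE_mem_W i) γ (R.α i)
  rw [hR.sE_α, hR.B_comm, hR.B_neg, hR.B_comm, hR.sE_eq, sub_eq_add_neg, hR.B_add, hR.B_neg,
    hR.B_smul] at h
  linarith

theorem A_zero_comm : R.A i j = 0 ↔ R.A j i = 0 := by
  have key : ∀ i j, R.A i j = 0 → R.A j i = 0 := fun i j h => by
    have h1 := hR.pr_B (R.α i) j
    have h2 := hR.pr_B (R.α j) i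
    rw [pr_α] at h1 h2
    rw [h, zero_mul] at h1
    rw [hR.B_comm (R.α j), ← h1] at h2
    exact (mul_eq_zero.1 h2).resolve_right (hR.B_α_pos i).ne'
  exact ⟨key i j, key j i⟩

theorem eq_of_coord (hγ : γ ∈ R.Φ) (h : ∀ j, j ≠ i → γ j = 0) : γ = R.α i ∨ γ = -R.α i := by
  have h1 : γ = γ i • R.α i := by
    ext j
    by_cases e : j = i
    · simp [e, α_self]
    · simp [h j e, α_ne e]
  rcases hR.red i (γ i) (h1 ▸ hγ) with e | e <;> rw [h1, e] <;> simp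

theorem reduced (hγ : γ ∈ R.Φ) (hδ : δ ∈ R.Φ) {a b : ℤ} (ha : a ≠ 0) (h : a • γ = b • δ) :
    γ = δ ∨ γ = -δ := by
  obtain ⟨w, hw, i, rfl⟩ := hR.exists_conj hδ
  have h1 := congrArg (w⁻¹ : R.Aut) h
  rw [map_smul, map_smul, inv_app] at h1
  rcases hR.eq_of_coord (i := i) (hR.map_mem (inv_mem hw) hγ) (fun j hj => by
    have := congrFun h1 j
    simpa [α_ne hj, ha] using this) with e | e
  · exact Or.inl (by rw [← e, app_inv])
  · exact Or.inr (by rw [← map_neg, ← e, app_inv])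

theorem s_pos (hγ : γ ∈ R.Pos) (h : γ ≠ R.α i) : R.sE i γ ∈ R.Pos := by
  obtain ⟨j, hj, h1⟩ : ∃ j, j ≠ i ∧ γ j ≠ 0 := by
    by_contra c
    push Not at c
    rcases hR.eq_of_coord hγ.1 c with e | e
    · exact h e
    · exact hR.not_both hγ.1 hγ.2 (by rw [e]; exact neg_nonpos.2 (α_nonneg i))
  refine hR.pos_of_coord (i := j) (hR.map_mem (sE_mem_W i) hγ.1) ?_
  rw [hR.sE_eq]
  simpa [α_ne hj] using lt_of_le_of_ne (hγ.2 j) h1.symm

theorem eq_α_of_neg (hγ : γ ∈ R.Pos) (h : R.sE i γ ≤ 0) : γ = R.α i := by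
  by_contra c
  exact hR.not_both (hR.s_pos hγ c).1 (hR.s_pos hγ c).2 h

theorem pr_conj (hw : w ∈ R.W) (h : w (R.α i) = R.α j) (γ : R.Q) : R.pr (w γ) j = R.pr γ i := by
  have h1 := hR.pr_B (w γ) j
  rw [← h, hR.B_inv hw, hR.B_inv hw, ← hR.pr_B] at h1
  exact mul_right_cancel₀ (hR.B_α_pos i).ne' h1

theorem conj_sE (hw : w ∈ R.W) (h : w (R.α i) = R.α j) : w * R.sE i = R.sE j * w :=
  LinearEquiv.ext fun γ => by
    rw [mul_app, mul_app, hR.sE_eq, hR.sE_eq, hR.pr_conj hw h, map_sub, map_smul, h]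

theorem exchange {l : List (Fin R.r)} (h : R.wd l (R.α i) ≤ 0) :
    ∃ l₁ a l₂, l = l₁ ++ a :: l₂ ∧ R.wd l₂ (R.α i) = R.α a := by
  induction l with
  | nil => exact (hR.not_both (hR.simple i) (α_nonneg i) h).elim
  | cons a l ih =>
    rcases hR.sign' (wd_mem_W l) (hR.simple i) with e | e
    · rw [wd_cons, mul_app] at h
      exact ⟨[], a, l, rfl, hR.eq_α_of_neg ⟨hR.map_mem (wd_mem_W l) (hR.simple i), e⟩ h⟩
    · obtain ⟨l₁, b, l₂, rfl, h1⟩ := ih e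
      exact ⟨a :: l₁, b, l₂, rfl, h1⟩

theorem wd_exchange {l₁ l₂ : List (Fin R.r)} {a : Fin R.r} (h : R.wd l₂ (R.α i) = R.α a) :
    R.wd (l₁ ++ a :: l₂) * R.sE i = R.wd (l₁ ++ l₂) := by
  rw [wd_append, wd_append, wd_cons, mul_assoc, mul_assoc, hR.conj_sE (wd_mem_W l₂) h,
    ← mul_assoc (R.sE a), hR.sE_mul_self, one_mul]

theorem eq_one (hw : w ∈ R.WJ J) (h : ∀ j ∈ J, 0 ≤ w (R.α j)) : w = 1 := by
  obtain ⟨l, hl, rfl⟩ := hR.exists_wd hw
  clear hw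
  induction hn : l.length using Nat.strong_induction_on generalizing l with
  | _ n ih =>
  rcases List.eq_nil_or_concat' l with rfl | ⟨u, b, rfl⟩
  · rfl
  have h1 := h b (hl b (by simp))
  rw [wd_append, wd_single, mul_app, hR.sE_α, map_neg, neg_nonneg] at h1
  obtain ⟨l₁, a, l₂, rfl, h2⟩ := hR.exchange h1
  rw [wd_append, wd_single, hR.wd_exchange h2] at h ⊢
  refine ih _ ?_ _ (fun i hi => hl i ?_) h rfl
  · rw [← hn]; simp
  · simp only [List.mem_append, List.mem_cons] at hi ⊢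
    tauto

end Ok

end RS

end Vale.Agent.P183CH
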